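import Crest.Agent.N250.Lin.Rel

/-!
# Row 250, linear Gaussian theory (helper22): coercive families, dual functions, the gap estimate
-/

set_option autoImplicit false
set_option linter.unusedSectionVars false
open MeasureTheory Set Filter Topology Function
open scoped ContDiff
open Crest.Agent.N222 Crest.Agent.N222.Imm

noncomputable section

namespace Crest.Agent.N250.Lin

variable {d : ℕ} {ι : Type} [Fintype ι] [DecidableEq ι] {X : Type} [TopologicalSpace X]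
  [T2Space X] [SecondCountableTopology X] [MeasurableSpace X] [BorelSpace X]

namespace Gd

variable {G : Gd d ι X} {f g u v w : X → ℝ}

/-! ### bilinearity -/

theorem ip_add (hw : G.S2 w) (hu : G.S2 u) (hv : G.S2 v) :
    G.ip w (fun p => u p + v p) = G.ip w u + G.ip w v := by
  simp only [ip, mul_add]
  exact integral_add (hw.mul hu) (hw.mul hv)

theorem ip_sub (hw : G.S2 w) (hu : G.S2 u) (hv : G.S2 v) :
    G.ip w (fun p => u p - v p) = G.ip w u - G.ip w v := by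
  simp only [ip, mul_sub]
  exact integral_sub (hw.mul hu) (hw.mul hv)

theorem s2_lc {κ : Type*} [Fintype κ] {y : κ → X → ℝ} (hy : ∀ k, G.S2 (y k)) (x : κ → ℝ) :
    G.S2 fun p => ∑ k, x k * y k p := s2_sum _ fun k => (hy k).const_mul _

theorem h1_lc {κ : Type*} [Fintype κ] {y : κ → X → ℝ} (hy : ∀ k, G.H1 (y k)) (x : κ → ℝ) :
    G.H1 fun p => ∑ k, x k * y k p := h1_sum _ fun k => (hy k).const_mul _

theorem tst_lc {κ : Type*} [Fintype κ] {y : κ → X → ℝ} (hy : ∀ k, G.M.Tst (y k)) (x : κ → ℝ) :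
    G.M.Tst fun p => ∑ k, x k * y k p :=
  ⟨sm_sum _ fun k _ => (sm_const _).mul (hy k).sm,
    HasCompactSupport.intro (isCompact_iUnion fun k => (hy k).cs.isCompact) fun p hp =>
      Finset.sum_eq_zero fun k _ => by
        rw [image_eq_zero_of_notMem_tsupport fun h => hp (mem_iUnion.2 ⟨k, h⟩), mul_zero]⟩

theorem ip_lc {κ : Type*} [Fintype κ] {y : κ → X → ℝ} (hw : G.S2 w) (hy : ∀ k, G.S2 (y k))
    (x : κ → ℝ) : G.ip w (fun p => ∑ k, x k * y k p) = ∑ k, x k * G.ip w (y k) := by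
  simp only [ip, Finset.mul_sum, mul_left_comm (w _)]
  rw [integral_finsetSum _ fun k _ => (hw.mul (hy k)).const_mul _]
  simp only [integral_const_mul]

theorem L_lc {κ : Type*} [Fintype κ] {y : κ → X → ℝ} (hy : ∀ k, G.M.Sm (y k)) (x : κ → ℝ)
    (p : X) : G.L (fun p => ∑ k, x k * y k p) p = ∑ k, x k * G.L (y k) p := by
  rw [L_sum _ fun k => (sm_const _).mul (hy k)]
  exact Finset.sum_congr rfl fun k _ => L_const_mul _ (hy k) p

theorem ip_self (u : X → ℝ) : G.ip u u = G.n0 u := by simp only [ip, n0, sq]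

theorem eq_zero_of_n0 (hu : G.S2 u) (h : G.n0 u = 0) : u = 0 := by
  have h1 := (integral_eq_zero_iff_of_nonneg (fun _ => sq_nonneg _) hu.sq).1 h
  have h2 := (Continuous.ae_eq_iff_eq G.nu (hu.sm.continuous.pow 2) continuous_zero).1 h1
  exact funext fun p => pow_eq_zero_iff two_ne_zero |>.1 (congrFun h2 p)

theorem le_of_forall_t {x a b : ℝ} (ha : 0 ≤ a) (hb : 0 ≤ b)
    (h : ∀ t : ℝ, 0 < t → 2 * |x| ≤ t * a + t⁻¹ * b) : x ^ 2 ≤ a * b := by
  rcases (abs_nonneg x).eq_or_lt with h0 | h0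
  · rw [← sq_abs, ← h0]; simpa using mul_nonneg ha hb
  rcases ha.eq_or_lt with h1 | h1
  · have h2 := h ((b + 1) / |x|) (by positivity)
    rw [← h1, mul_zero, zero_add, inv_div, div_mul_eq_mul_div, le_div_iff₀ (by positivity)] at h2
    nlinarith
  · have h2 := h (|x| / a) (by positivity)
    rw [div_mul_cancel₀ _ h1.ne', inv_div, div_mul_eq_mul_div] at h2
    have h3 : |x| ≤ a * b / |x| := by linarith
    rwa [le_div_iff₀ h0, ← sq, sq_abs] at h3

theorem two_abs_mul_le (a b : ℝ) {t : ℝ} (ht : 0 < t) : 2 * |a * b| ≤ t * a ^ 2 + t⁻¹ * b ^ 2 := by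
  have h := sq_nonneg (t * |a| - |b|)
  rw [abs_mul, ← sq_abs a, ← sq_abs b, ← mul_le_mul_iff_right₀ ht, mul_add, mul_inv_cancel_left₀ ht.ne']
  nlinarith

/-- Cauchy-Schwarz -/
theorem ip_sq_le (hu : G.S2 u) (hv : G.S2 v) : G.ip u v ^ 2 ≤ G.n0 u * G.n0 v := by
  refine le_of_forall_t (n0_nonneg u) (n0_nonneg v) fun t ht => ?_
  rw [n0, n0, ← integral_const_mul, ← integral_const_mul,
    ← integral_add (hu.sq.const_mul _) (hv.sq.const_mul _)]
  refine le_trans (mul_le_mul_of_nonneg_left abs_integral_le_integral_abs zero_le_two) ?_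
  rw [← integral_const_mul]
  exact integral_mono ((hu.mul hv).abs.const_mul _) ((hu.sq.const_mul _).add (hv.sq.const_mul _))
    fun p => two_abs_mul_le _ _ ht

theorem intg_Q (hu : G.H1 u) (hv : G.H1 v) :
    Integrable (fun p => G.M.pre.gam u v p - G.c p * (u p * v p)) G.nu := by
  simp only [← mul_assoc]
  exact (hu.gam hv).sub (hu.toS2.cmul.mul hv.toS2)

theorem two_abs_Q_le (hu : G.H1 u) (hv : G.H1 v) {t : ℝ} (ht : 0 < t) :
    2 * |G.Q u v| ≤ t * (G.B * (G.n0 u + G.n1 u)) + t⁻¹ * (G.B * (G.n0 v + G.n1 v)) := by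
  have iu : Integrable (fun p => u p ^ 2 + G.g1 u p) G.nu := hu.toS2.sq.add hu.d1
  have iv : Integrable (fun p => v p ^ 2 + G.g1 v p) G.nu := hv.toS2.sq.add hv.d1
  have iq := intg_Q hu hv
  rw [n0, n0, n1, n1, ← integral_add hu.toS2.sq hu.d1, ← integral_add hv.toS2.sq hv.d1,
    ← integral_const_mul, ← integral_const_mul, ← integral_const_mul, ← integral_const_mul,
    ← integral_add ((iu.const_mul _).const_mul _) ((iv.const_mul _).const_mul _)]
  refine le_trans (mul_le_mul_of_nonneg_left abs_integral_le_integral_abs zero_le_two) ?_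
  rw [← integral_const_mul]
  refine integral_mono (iq.abs.const_mul _)
    (((iu.const_mul _).const_mul _).add ((iv.const_mul _).const_mul _)) fun p => ?_
  have a1 : 2 * |G.M.pre.gam u v p| ≤ t * G.g1 u p + t⁻¹ * G.g1 v p := by
    rw [gam_apply, g1_eq, g1_eq, Finset.mul_sum, Finset.mul_sum, ← Finset.sum_add_distrib]
    refine le_trans (mul_le_mul_of_nonneg_left (Finset.abs_sum_le_sum_abs _ _) zero_le_two) ?_
    rw [Finset.mul_sum]
    exact Finset.sum_le_sum fun a _ => two_abs_mul_le _ _ ht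
  have a2 := two_abs_mul_le (u p) (v p) ht
  have a3 : |G.c p * (u p * v p)| ≤ G.B * |u p * v p| := by
    rw [abs_mul]; exact mul_le_mul_of_nonneg_right (G.cle p) (abs_nonneg _)
  have a4 := abs_sub (G.M.pre.gam u v p) (G.c p * (u p * v p))
  have a5 : 0 ≤ t * G.g1 u p + t⁻¹ * G.g1 v p := le_trans (by positivity) a1
  have hB := G.one
  simp only
  nlinarith [mul_le_mul_of_nonneg_left a2 (by linarith : 0 ≤ G.B),
    mul_le_mul_of_nonneg_right hB a5]

theorem Q_sq_le (hu : G.H1 u) (hv : G.H1 v) :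
    G.Q u v ^ 2 ≤ G.B * (G.n0 u + G.n1 u) * (G.B * (G.n0 v + G.n1 v)) := by
  have hB : 0 ≤ G.B := zero_le_one.trans G.one
  exact le_of_forall_t (mul_nonneg hB (add_nonneg (n0_nonneg _) (n1_nonneg _)))
    (mul_nonneg hB (add_nonneg (n0_nonneg _) (n1_nonneg _))) fun t ht => two_abs_Q_le hu hv ht

theorem gam_add (hu : G.M.Sm u) (hv : G.M.Sm v) (w : X → ℝ) (p : X) :
    G.M.pre.gam w (fun p => u p + v p) p = G.M.pre.gam w u p + G.M.pre.gam w v p := by
  simp only [gam_apply, D_add (hu.diffAt p) (hv.diffAt p), mul_add, Finset.sum_add_distrib]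

theorem Q_add (hw : G.H1 w) (hu : G.H1 u) (hv : G.H1 v) :
    G.Q w (fun p => u p + v p) = G.Q w u + G.Q w v := by
  simp only [Q, gam_add hu.sm hv.sm]
  rw [← integral_add (intg_Q hw hu) (intg_Q hw hv)]
  exact integral_congr_ae (.of_forall fun p => by ring)

theorem Q_self_ge (hu : G.H1 u) : G.n1 u - G.B * G.n0 u ≤ G.Q u u := by
  rw [n1, n0, ← integral_const_mul, ← integral_sub hu.d1 (hu.toS2.sq.const_mul _)]
  refine integral_mono (hu.d1.sub (hu.toS2.sq.const_mul _)) (intg_Q hu hu) fun p => ?_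
  have := mul_le_mul_of_nonneg_right (le_of_abs_le (G.cle p)) (sq_nonneg (u p))
  simp only [g1]
  nlinarith

theorem n0_add_le (hu : G.S2 u) (hv : G.S2 v) :
    G.n0 (fun p => u p + v p) ≤ 2 * G.n0 u + 2 * G.n0 v := by
  rw [n0, n0, n0, ← integral_const_mul, ← integral_const_mul,
    ← integral_add (hu.sq.const_mul _) (hv.sq.const_mul _)]
  exact integral_mono (hu.add hv).sq ((hu.sq.const_mul _).add (hv.sq.const_mul _)) fun p => by
    simp only
    nlinarith [sq_nonneg (u p - v p)]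

theorem n1_add_le (hu : G.H1 u) (hv : G.H1 v) :
    G.n1 (fun p => u p + v p) ≤ 2 * G.n1 u + 2 * G.n1 v := by
  rw [n1, n1, n1, ← integral_const_mul, ← integral_const_mul,
    ← integral_add (hu.d1.const_mul _) (hv.d1.const_mul _)]
  refine integral_mono (hu.add hv).d1 ((hu.d1.const_mul _).add (hv.d1.const_mul _)) fun p => ?_
  simp only [g1_eq, D_add' hu.sm hv.sm, Finset.mul_sum, ← Finset.sum_add_distrib]
  exact Finset.sum_le_sum fun a _ => by nlinarith [sq_nonneg (G.D a u p - G.D a v p)]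

theorem n0_lc_le {κ : Type*} [Fintype κ] {y : κ → X → ℝ} (hy : ∀ k, G.S2 (y k)) (x : κ → ℝ) :
    G.n0 (fun p => ∑ k, x k * y k p) ≤ (∑ k, x k ^ 2) * ∑ k, G.n0 (y k) := by
  simp only [n0]
  rw [← integral_finsetSum _ fun k _ => (hy k).sq, ← integral_const_mul]
  exact integral_mono (s2_lc hy x).sq ((integrable_finsetSum _ fun k _ => (hy k).sq).const_mul _)
    fun p => Finset.sum_mul_sq_le_sq_mul_sq _ _ _

theorem D_lc {κ : Type*} [Fintype κ] {y : κ → X → ℝ} (hy : ∀ k, G.M.Sm (y k)) (x : κ → ℝ)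
    (a : ι) (p : X) : G.D a (fun p => ∑ k, x k * y k p) p = ∑ k, x k * G.D a (y k) p := by
  rw [D, D_sum _ fun k _ => ((sm_const _).mul (hy k)).diffAt p]
  exact Finset.sum_congr rfl fun k _ => D_const_mul _ ((hy k).diffAt p) a

theorem n1_lc_le {κ : Type*} [Fintype κ] {y : κ → X → ℝ} (hy : ∀ k, G.H1 (y k)) (x : κ → ℝ) :
    G.n1 (fun p => ∑ k, x k * y k p) ≤ (∑ k, x k ^ 2) * ∑ k, G.n1 (y k) := by
  simp only [n1]
  rw [← integral_finsetSum _ fun k _ => (hy k).d1, ← integral_const_mul]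
  refine integral_mono (h1_lc hy x).d1
    ((integrable_finsetSum _ fun k _ => (hy k).d1).const_mul _) fun p => ?_
  simp only [g1_eq, D_lc fun k => (hy k).sm]
  rw [Finset.sum_comm, Finset.mul_sum]
  exact Finset.sum_le_sum fun a _ => Finset.sum_mul_sq_le_sq_mul_sq _ _ _

/-! ### families -/

theorem solve_lin {κ : Type} [Fintype κ] (A : κ → κ → ℝ)
    (h : ∀ x : κ → ℝ, (∀ j, ∑ k, x k * A j k = 0) → x = 0) (y : κ → ℝ) :
    ∃ x : κ → ℝ, ∀ j, ∑ k, x k * A j k = y j := by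
  classical
  have h1 : Injective (Matrix.toLin' (Matrix.of A)) := by
    rw [← LinearMap.ker_eq_bot, LinearMap.ker_eq_bot']
    intro x hx
    refine h x fun j => Eq.trans ?_ (congrFun hx j)
    simp [Matrix.mulVec, dotProduct, mul_comm]
  obtain ⟨x, hx⟩ := LinearMap.injective_iff_surjective.1 h1 y
  refine ⟨x, fun j => Eq.trans ?_ (congrFun hx j)⟩
  simp [Matrix.mulVec, dotProduct, mul_comm]

theorem li_zero {κ : Type} [Fintype κ] {ψ : κ → X → ℝ} (h : LinearIndependent ℝ ψ) {x : κ → ℝ}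
    (hx : ∀ p, ∑ k, x k * ψ k p = 0) : x = 0 :=
  funext (Fintype.linearIndependent_iff.1 h x (funext fun p => by simpa using hx p))

theorem li_of {κ : Type} [Fintype κ] {ψ : κ → X → ℝ}
    (h : ∀ x : κ → ℝ, (∀ p, ∑ k, x k * ψ k p = 0) → x = 0) : LinearIndependent ℝ ψ :=
  Fintype.linearIndependent_iff.2 fun x hx =>
    congrFun (h x fun p => by simpa using congrFun hx p)

/-- dual test functions -/
theorem exists_dual {κ : Type} [Fintype κ] [DecidableEq κ] {ψ : κ → X → ℝ}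
    (ht : ∀ k, G.M.Tst (ψ k)) (h : LinearIndependent ℝ ψ) : ∃ θ : κ → X → ℝ,
      (∀ k, G.M.Tst (θ k)) ∧ (∀ k, ∃ x : κ → ℝ, θ k = fun p => ∑ l, x l * ψ l p) ∧
      ∀ j k, G.ip (ψ j) (θ k) = if j = k then 1 else 0 := by
  have s2 : ∀ k, G.S2 (ψ k) := fun k => tst_s2 (ht k)
  choose x hx using fun k => solve_lin (fun j l => G.ip (ψ j) (ψ l)) (fun x hx => by
    refine li_zero h fun p => congrFun (eq_zero_of_n0 (s2_lc s2 x) ?_) p
    rw [← ip_self, ip_lc (s2_lc s2 x) s2]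
    refine Finset.sum_eq_zero fun j _ => ?_
    rw [ip_comm, ip_lc (s2 j) s2, hx j, mul_zero]) fun j => if j = k then 1 else 0
  exact ⟨fun k p => ∑ l, x k l * ψ l p, fun k => tst_lc ht _, fun k => ⟨_, rfl⟩, fun j k => by
    rw [ip_lc (s2 j) s2, hx k j]⟩

theorem ip_span {s : Set (X → ℝ)} (hs : ∀ w ∈ s, G.S2 w) (hu : G.S2 u)
    (h : ∀ w ∈ s, G.ip w u = 0) (hw : w ∈ Submodule.span ℝ s) : G.S2 w ∧ G.ip w u = 0 := by
  induction hw using Submodule.span_induction with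
  | mem w hw => exact ⟨hs w hw, h w hw⟩
  | zero => exact ⟨⟨sm_const 0, MemLp.zero⟩, by simp [ip]⟩
  | add w w' _ _ h1 h2 =>
    exact ⟨h1.1.add h2.1, by
      rw [ip_comm, show w + w' = fun p => w p + w' p from rfl, ip_add hu h1.1 h2.1, ip_comm, h1.2,
        ip_comm, h2.2, add_zero]⟩
  | smul c w _ h1 =>
    exact ⟨h1.1.const_mul c, by
      rw [ip_comm, show c • w = fun p => c * w p from rfl, ip_const_mul, ip_comm, h1.2, mul_zero]⟩

/-- a family whose span contains a coercive family is coercive -/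
theorem Fam.ext' {κ κ' : Type} [Fintype κ] [Fintype κ'] {ψ : κ → X → ℝ} {ψ' : κ' → X → ℝ}
    (h : G.Fam ψ) (ht : ∀ k, G.M.Tst (ψ' k)) (hl : LinearIndependent ℝ ψ')
    (hr : ∀ k, ψ k ∈ Submodule.span ℝ (range ψ')) : G.Fam ψ' := by
  obtain ⟨c, hc, h1⟩ := h.coer
  refine ⟨ht, hl, c, hc, fun u hu h2 => h1 u hu fun k => (ip_span ?_ hu.toS2 ?_ (hr k)).2⟩
  · rintro _ ⟨j, rfl⟩
    exact tst_s2 (ht j)
  · rintro _ ⟨j, rfl⟩
    exact h2 j

theorem Fam.ext {κ κ' : Type} [Fintype κ] [Fintype κ'] {ψ : κ → X → ℝ} {ψ' : κ' → X → ℝ}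
    (h : G.Fam ψ) (ht : ∀ k, G.M.Tst (ψ' k)) (hl : LinearIndependent ℝ ψ')
    (hr : range ψ ⊆ range ψ') : G.Fam ψ' :=
  h.ext' ht hl fun k => Submodule.subset_span (hr (mem_range_self k))

/-- coercive families exist; their span can be made to contain any finite set of test functions -/
theorem exists_fam' (G : Gd d ι X) (t : Finset (X → ℝ)) (ht : ∀ w ∈ t, G.M.Tst w) :
    ∃ (n : ℕ) (ψ : Fin n → X → ℝ), G.Fam ψ ∧ ∀ w ∈ t, w ∈ Submodule.span ℝ (range ψ) := by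
  classical
  have hB := G.one
  obtain ⟨s, hs, h⟩ := G.exists_small (ε := 1 / (2 * (G.B + 1))) (by positivity)
  obtain ⟨b, hb, h1, h2⟩ := exists_linearIndependent ℝ ((s ∪ t : Finset (X → ℝ)) : Set (X → ℝ))
  have hf : Finite b := (Finset.finite_toSet _).subset hb
  obtain ⟨n, ⟨e⟩⟩ := Finite.exists_equiv_fin b
  have hr : range (fun k => (e.symm k : X → ℝ)) = b := by
    rw [show (fun k => (e.symm k : X → ℝ)) = Subtype.val ∘ e.symm from rfl,
      e.symm.surjective.range_comp, Subtype.range_coe]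
  have tb : ∀ w ∈ b, G.M.Tst w := fun w hw =>
    (Finset.mem_union.1 (hb hw)).elim (hs w) (ht w)
  refine ⟨n, fun k => e.symm k, ⟨fun k => tb _ (e.symm k).2, h2.comp _ e.symm.injective, 1 / 2,
    by norm_num, fun u hu h3 => ?_⟩, fun w hw => ?_⟩
  · have h4 := h u hu fun w hw => (ip_span (s := b) (fun w hw => tst_s2 (tb w hw)) hu.toS2
      (fun w hw => by simpa using h3 (e ⟨w, hw⟩))
      (h1 ▸ Submodule.subset_span (Finset.mem_union_left t hw))).2
    rw [one_div, inv_mul_eq_div, le_div_iff₀ (by positivity)] at h4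
    have h5 := Q_self_ge hu
    nlinarith
  · rw [hr, h1]
    exact Submodule.subset_span (Finset.mem_union_right s hw)

/-- **coercive families exist** -/
theorem exists_fam (G : Gd d ι X) : ∃ (n : ℕ) (ψ : Fin n → X → ℝ), G.Fam ψ := by
  obtain ⟨n, ψ, h, -⟩ := G.exists_fam' ∅ (by simp)
  exact ⟨n, ψ, h⟩

variable {κ : Type} [Fintype κ] {ψ : κ → X → ℝ}

theorem Fam.s2 (h : G.Fam ψ) (k : κ) : G.S2 (ψ k) := tst_s2 (h.tst k)

/-- **coercivity up to the constraints** -/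
theorem Fam.coer' (h : G.Fam ψ) : ∃ c : ℝ, 0 < c ∧ ∀ u, G.H1 u →
    c * (G.n0 u + G.n1 u) ≤ G.Q u u + c⁻¹ * ∑ k, G.ip (ψ k) u ^ 2 := by
  classical
  obtain ⟨c, hc, h1⟩ := h.coer
  obtain ⟨θ, tθ, -, hθ⟩ := exists_dual h.tst h.li
  have hB : 0 < G.B := one_pos.trans_le G.one
  obtain ⟨Θ, hΘ, hΘ'⟩ : ∃ Θ : ℝ, 0 ≤ Θ ∧ Θ = ∑ k, G.n0 (θ k) + ∑ k, G.n1 (θ k) :=
    ⟨_, add_nonneg (Finset.sum_nonneg fun k _ => n0_nonneg _)
      (Finset.sum_nonneg fun k _ => n1_nonneg _), rfl⟩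
  obtain ⟨K, hK, hK'⟩ : ∃ K : ℝ, 0 < K ∧ K = (c + G.B + 4 * G.B / c * G.B) * Θ + 4 / c :=
    ⟨_, by positivity, rfl⟩
  refine ⟨K⁻¹, by positivity, fun u hu => ?_⟩
  obtain ⟨z, hh, a0, a1, a3⟩ : ∃ z, G.H1 z ∧ G.n0 z ≤ (∑ k, G.ip (ψ k) u ^ 2) * ∑ k, G.n0 (θ k) ∧
      G.n1 z ≤ (∑ k, G.ip (ψ k) u ^ 2) * ∑ k, G.n1 (θ k) ∧ ∀ j, G.ip (ψ j) z = -G.ip (ψ j) u :=
    ⟨fun p => ∑ k, (-G.ip (ψ k) u) * θ k p, h1_lc (fun k => tst_h1 (tθ k)) _,
      by simpa only [neg_sq] using n0_lc_le (fun k => tst_s2 (tθ k)) fun k => -G.ip (ψ k) u,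
      by simpa only [neg_sq] using n1_lc_le (fun k => tst_h1 (tθ k)) fun k => -G.ip (ψ k) u,
      fun j => by
        rw [ip_lc (h.s2 j) fun k => tst_s2 (tθ k)]
        simp [hθ]⟩
  have a2 := h1 _ (hu.add hh) fun j => by
    rw [ip_add (h.s2 j) hu.toS2 hh.toS2, a3, add_neg_cancel]
  have hY : 0 ≤ ∑ k, G.ip (ψ k) u ^ 2 := Finset.sum_nonneg fun _ _ => sq_nonneg _
  generalize ∑ k, G.ip (ψ k) u ^ 2 = Y at a0 a1 hY
  have b1 : G.n0 z + G.n1 z ≤ Y * Θ := by rw [hΘ', mul_add]; linarith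
  have b2 := n0_add_le (hu.add hh).toS2 (hh.const_mul (-1)).toS2
  have b3 := n1_add_le (hu.add hh) (hh.const_mul (-1))
  rw [n0_const_mul] at b2
  rw [n1_const_mul _ hh.sm] at b3
  simp only [neg_mul, one_mul, add_neg_cancel_right, even_two, Even.neg_pow, one_pow] at b2 b3
  change G.n0 u ≤ _ at b2
  change G.n1 u ≤ _ at b3
  rw [Q_add (hu.add hh) hu hh, Q_comm _ u, Q_comm _ z, Q_add hu hu hh, Q_add hh hu hh,
    Q_comm z u] at a2
  have b4 := two_abs_Q_le hu hh (t := c / (4 * G.B)) (by positivity)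
  have b5 := two_abs_Q_le hh hh one_pos
  rw [inv_div, ← mul_assoc, ← mul_assoc, show c / (4 * G.B) * G.B = c / 4 by field_simp] at b4
  have b6 : K⁻¹ ≤ c / 4 := by
    rw [← inv_div]
    exact inv_anti₀ (by positivity) (hK' ▸ le_add_of_nonneg_left (by positivity))
  have b7 := add_nonneg (n0_nonneg (G := G) u) (n1_nonneg (G := G) u)
  have b8 := mul_le_mul_of_nonneg_left b1
    (by positivity : 0 ≤ c + G.B + 4 * G.B / c * G.B)
  have b9 : 0 ≤ 4 / c * Y := by positivity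
  have b10 := mul_le_mul_of_nonneg_left (add_le_add b2 b3) hc.le
  rw [inv_inv, hK']
  rw [hK'] at b6
  nlinarith [mul_le_mul_of_nonneg_right b6 b7, le_abs_self (G.Q u z), le_abs_self (G.Q z z)]

theorem lim_Q_cut (hu : G.H1 u) (hv : G.H1 v) :
    Tendsto (fun n => G.Q u fun p => G.cut n p * v p) atTop (𝓝 (G.Q u v)) := by
  have h := (lim_cut (intg_Q hu hv) 1).add (lim_gam_cut hv.toS2 hu)
  rw [add_zero] at h
  refine h.congr fun n => ?_
  have t := G.tst_cut n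
  simp only [pow_one]
  rw [← integral_add (tst_intg (tst_mul t ((hu.sm.gam hv.sm).sub (G.smc.mul (hu.sm.mul hv.sm)))))
    (tst_intg (tst_mul' hv.sm (tst_gam t hu.sm)))]
  refine integral_congr_ae (.of_forall fun p => ?_)
  simp only [gam_comm u, gam_mul t.sm hv.sm]
  ring

theorem lim_ip_cut (hu : G.S2 u) (hv : G.S2 v) :
    Tendsto (fun n => G.ip u fun p => G.cut n p * v p) atTop (𝓝 (G.ip u v)) := by
  simpa only [ip, pow_one, mul_left_comm (u _)] using lim_cut (hu.mul hv) 1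

theorem gap_alg {c K P T : ℝ} (hc : 0 < c) (hK : 0 < K) (hP : 0 ≤ P) (hT : 0 ≤ T) :
    ∃ C : ℝ, 0 < C ∧ ∀ N Y S η q s : ℝ, 0 ≤ N → 0 ≤ Y → 0 ≤ η → c * N ≤ q + c⁻¹ * Y →
      (∀ t : ℝ, 0 < t → 2 * (q + s) ≤ t * η + t⁻¹ * (K * N)) →
      (∀ t : ℝ, 0 < t → 2 * |s| ≤ t * S + t⁻¹ * Y) → S ≤ P * η + T * N →
      N + S ≤ C * (η + Y) := by
  obtain ⟨t, ht, ht'⟩ : ∃ t : ℝ, 0 < t ∧ t * T ≤ c / 2 := ⟨c / (2 * (T + 1)), by positivity, by
    rw [div_mul_eq_mul_div, div_le_iff₀ (by positivity)]; nlinarith⟩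
  obtain ⟨A, hA, hA'⟩ : ∃ A : ℝ, 0 < A ∧ A = (2 * K / c + t * P + t⁻¹ + 2 * c⁻¹) / c :=
    ⟨_, by positivity, rfl⟩
  refine ⟨P + (T + 1) * A, by positivity, fun N Y S η q s hN hY hη h1 h2 h3 h4 => ?_⟩
  have a1 := h2 (2 * K / c) (by positivity)
  rw [inv_div, ← mul_assoc, show c / (2 * K) * K = c / 2 by field_simp] at a1
  have a2 := h3 t ht
  have a3 : N ≤ A * (η + Y) := by
    rw [hA', div_mul_eq_mul_div, le_div_iff₀ hc]
    have b1 : 0 ≤ (2 * K / c + t * P) * Y := by positivity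
    have b2 : 0 ≤ (t⁻¹ + 2 * c⁻¹) * η := by positivity
    nlinarith [neg_abs_le s, mul_le_mul_of_nonneg_left h4 ht.le, mul_le_mul_of_nonneg_right ht' hN]
  nlinarith [mul_le_mul_of_nonneg_left a3 hT, mul_nonneg hP hY]

/-- **the gap estimate** -/
theorem Fam.gap (h : G.Fam ψ) : ∃ C : ℝ, 0 < C ∧ ∀ (u : X → ℝ) (c : κ → ℝ) (η : ℝ), G.H1 u →
    (∀ v, G.M.Tst v → |G.Q u v + ∑ k, c k * G.ip (ψ k) v| ≤ η * √(G.n0 v + G.n1 v)) →
    G.n0 u + G.n1 u + ∑ k, c k ^ 2 ≤ C * (η ^ 2 + ∑ k, G.ip (ψ k) u ^ 2) := by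
  classical
  obtain ⟨c₀, hc, h1⟩ := h.coer'
  obtain ⟨θ, tθ, -, hθ⟩ := exists_dual h.tst h.li
  obtain ⟨K, hK, hcut⟩ := G.exists_cut_le
  have hB : 0 < G.B := one_pos.trans_le G.one
  have nn : ∀ v, 0 ≤ G.n0 v + G.n1 v := fun v => add_nonneg (n0_nonneg v) (n1_nonneg v)
  have hΘ : 0 ≤ ∑ k, (G.n0 (θ k) + G.n1 (θ k)) := Finset.sum_nonneg fun k _ => nn _
  obtain ⟨C, hC, h2⟩ := gap_alg (K := K + 2) (P := 2 * ∑ k, (G.n0 (θ k) + G.n1 (θ k)))
    (T := 2 * (G.B * G.B * ∑ k, (G.n0 (θ k) + G.n1 (θ k)))) hc (by positivity) (by positivity)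
    (by positivity)
  refine ⟨C, hC, fun u c η hu hv => h2 _ _ _ _ (G.Q u u) (∑ k, c k * G.ip (ψ k) u) (nn u)
    (Finset.sum_nonneg fun _ _ => sq_nonneg _) (sq_nonneg _) (h1 u hu) (fun t ht => ?_)
    (fun t ht => ?_) ?_⟩
  · refine le_of_tendsto' (((lim_Q_cut hu hu).add (tendsto_finsetSum _ fun k _ =>
      (lim_ip_cut (h.s2 k) hu.toS2).const_mul (c k))).const_mul 2) fun n => ?_
    have a1 := hv _ (tst_mul (G.tst_cut n) hu.sm)
    have a2 := two_abs_mul_le η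
      (√(G.n0 (fun p => G.cut n p * u p) + G.n1 fun p => G.cut n p * u p)) ht
    rw [Real.sq_sqrt (nn _)] at a2
    obtain ⟨a3, a4⟩ := hcut n u hu
    have a5 : G.n0 (fun p => G.cut n p * u p) + G.n1 (fun p => G.cut n p * u p) ≤
        (K + 2) * (G.n0 u + G.n1 u) := by
      nlinarith [n0_nonneg (G := G) u, mul_nonneg hK.le (n1_nonneg (G := G) u)]
    have a6 := mul_le_mul_of_nonneg_left a5 (inv_pos.2 ht).le
    linarith [le_abs_self (η * √(G.n0 (fun p => G.cut n p * u p) +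
      G.n1 fun p => G.cut n p * u p)), le_of_abs_le a1]
  · rw [Finset.mul_sum, Finset.mul_sum, ← Finset.sum_add_distrib]
    refine le_trans (mul_le_mul_of_nonneg_left (Finset.abs_sum_le_sum_abs _ _) zero_le_two) ?_
    rw [Finset.mul_sum]
    exact Finset.sum_le_sum fun a _ => two_abs_mul_le _ _ ht
  · simp only [Finset.mul_sum, Finset.sum_mul, ← Finset.sum_add_distrib]
    refine Finset.sum_le_sum fun k _ => ?_
    have a1 := hv _ (tθ k)
    simp only [hθ, mul_ite, mul_one, mul_zero, Finset.sum_ite_eq', Finset.mem_univ, if_true] at a1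
    have a2 : (G.Q u (θ k) + c k) ^ 2 ≤ η ^ 2 * (G.n0 (θ k) + G.n1 (θ k)) := by
      rw [← sq_abs, ← Real.sq_sqrt (nn (θ k)), ← mul_pow]
      exact pow_le_pow_left₀ (abs_nonneg _) a1 2
    have a3 := Q_sq_le hu (tst_h1 (tθ k))
    nlinarith [sq_nonneg (2 * G.Q u (θ k) + c k)]

end Gd

end Crest.Agent.N250.Lin

end
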