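import Crest.Agent.N250.Lin.Est

/-!
# Row 250, linear Gaussian theory (helper22): the `H²` estimate
-/

set_option autoImplicit false
set_option linter.unusedSectionVars false
open MeasureTheory Set Filter Topology Function
open scoped ContDiff
open Crest.Agent.N222 Crest.Agent.N222.Imm

noncomputable section

namespace Crest.Agent.N250.Lin

theorem abs_le_sqrt_of_sq {x y : ℝ} (h : x ^ 2 ≤ y) : |x| ≤ √y := Real.abs_le_sqrt h

/-- the algebra behind the Bochner inequality -/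
theorem h2_alg {ι : Type} [Fintype ι] (T : ι → ι → ℝ) (u : ι → ℝ) (κ : ι → ι → ι → ℝ)
    (β : ι → ι → ℝ) {B : ℝ} (hB : 0 ≤ B) (hκ : ∀ a e c, |κ a e c| ≤ 2 * B) (hβ : ∀ a e, |β a e| ≤ B)
    (hT : ∀ a e, T a e - T e a = ∑ c, κ a e c * u c) :
    ∑ a, ∑ e, T a e ^ 2 ≤ 2 * (∑ a, ∑ e, (T a e * T e a + u e * (∑ c, κ a e c * T c a - β e a * u a)))
      + (16 * B ^ 2 * (Fintype.card ι : ℝ) ^ 6 + 2 * B * (Fintype.card ι : ℝ) ^ 2) * ∑ a, u a ^ 2 := by
  set t := √(∑ a, ∑ e, T a e ^ 2) with ht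
  set s := √(∑ a, u a ^ 2) with hs
  set N : ℝ := (Fintype.card ι : ℝ) with hN
  have t0 : 0 ≤ t := Real.sqrt_nonneg _
  have s0 : 0 ≤ s := Real.sqrt_nonneg _
  have t2 : t ^ 2 = ∑ a, ∑ e, T a e ^ 2 := Real.sq_sqrt (by positivity)
  have s2 : s ^ 2 = ∑ a, u a ^ 2 := Real.sq_sqrt (by positivity)
  have hTt : ∀ a e, |T a e| ≤ t := fun a e => abs_le_sqrt_of_sq
    ((Finset.single_le_sum (f := fun e => T a e ^ 2) (fun _ _ => sq_nonneg _)
      (Finset.mem_univ e)).trans (Finset.single_le_sum (f := fun a => ∑ e, T a e ^ 2)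
        (fun _ _ => by positivity) (Finset.mem_univ a)))
  have hus : ∀ a, |u a| ≤ s := fun a => abs_le_sqrt_of_sq
    (Finset.single_le_sum (f := fun a => u a ^ 2) (fun _ _ => sq_nonneg _) (Finset.mem_univ a))
  have k1 : ∀ (a e : ι) (w : ι → ℝ) (r : ℝ), (∀ c, |w c| ≤ r) → |∑ c, κ a e c * w c| ≤ N * (2 * B * r) :=
    fun a e w r hw => (Finset.abs_sum_le_sum_abs _ _).trans (by
      refine (Finset.sum_le_card_nsmul _ _ (2 * B * r) fun c _ => ?_).trans (by
        rw [nsmul_eq_mul, Finset.card_univ])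
      rw [abs_mul]
      exact mul_le_mul (hκ a e c) (hw c) (abs_nonneg _) (by positivity))
  have k2 : ∀ a e, T a e ^ 2 - (T a e * T e a + u e * (∑ c, κ a e c * T c a - β e a * u a)) ≤
      4 * B * N * (s * t) + B * s ^ 2 := fun a e => by
    have a1 : |T a e * (T a e - T e a)| ≤ t * (N * (2 * B * s)) := by
      rw [abs_mul, hT]
      exact mul_le_mul (hTt a e) (k1 a e u s hus) (abs_nonneg _) t0
    have a2 : |u e * ∑ c, κ a e c * T c a| ≤ s * (N * (2 * B * t)) := by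
      rw [abs_mul]
      exact mul_le_mul (hus e) (k1 a e (fun c => T c a) t fun c => hTt c a) (abs_nonneg _) s0
    have a3 : |u e * (β e a * u a)| ≤ s * (B * s) := by
      rw [abs_mul, abs_mul]
      exact mul_le_mul (hus e) (mul_le_mul (hβ e a) (hus a) (abs_nonneg _) hB) (by positivity) s0
    nlinarith [(abs_le.1 a1).2, (abs_le.1 a2).1, (abs_le.1 a3).2]
  have k3 : ∑ a, ∑ e, T a e ^ 2 -
      ∑ a, ∑ e, (T a e * T e a + u e * (∑ c, κ a e c * T c a - β e a * u a)) ≤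
      N * (N * (4 * B * N * (s * t) + B * s ^ 2)) := by
    rw [← Finset.sum_sub_distrib]
    refine (Finset.sum_le_card_nsmul _ _ (N * (4 * B * N * (s * t) + B * s ^ 2)) fun a _ => ?_).trans
      (by rw [nsmul_eq_mul, Finset.card_univ])
    rw [← Finset.sum_sub_distrib]
    exact (Finset.sum_le_card_nsmul _ _ _ fun e _ => k2 a e).trans
      (by rw [nsmul_eq_mul, Finset.card_univ])
  rw [← s2]
  rw [← t2] at k3 ⊢
  nlinarith [sq_nonneg (t - 4 * B * N ^ 3 * s)]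

variable {d : ℕ} {ι : Type} [Fintype ι] [DecidableEq ι] {X : Type} [TopologicalSpace X]
  [T2Space X] [SecondCountableTopology X] [MeasurableSpace X] [BorelSpace X]

namespace Gd

variable {G : Gd d ι X} {f g u v : X → ℝ}

/-- commutator of tangential derivatives -/
theorem DD_comm (hf : G.M.Sm f) (a e : ι) (p : X) : G.D a (G.D e f) p - G.D e (G.D a f) p =
    ∑ c, (G.M.pre.II a c e p - G.M.pre.II e c a p) * G.D c f p := by
  simp only [D, DD hf, hess_symm hf a e, sub_mul, Finset.sum_sub_distrib]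
  ring

/-- the Bochner field -/
def Z (G : Gd d ι X) (u : X → ℝ) (a : ι) (p : X) : ℝ :=
  ∑ e, G.D e u p * G.D e (G.D a u) p - G.D a u p * G.L0 u p

theorem smZ (hu : G.M.Sm u) (a : ι) : G.M.Sm (G.Z u a) :=
  (sm_sum _ fun e _ => (hu.D e).mul ((hu.D a).D e)).sub ((hu.D a).mul (smL0 hu))

theorem D_L0 (hu : G.M.Sm u) (e : ι) (p : X) : G.D e (G.L0 u) p =
    ∑ a, (G.D e (G.D a (G.D a u)) p + (G.b a p * G.D e (G.D a u) p + G.D e (G.b a) p * G.D a u p)) := by
  rw [show G.L0 u = _ from funext (L0_eq u), D, D_sum _ fun a _ =>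
    ((((hu.D a).D a).add ((G.smb a).mul (hu.D a))).diffAt p)]
  refine Finset.sum_congr rfl fun a _ => ?_
  rw [D_add (((hu.D a).D a).diffAt p) (((G.smb a).mul (hu.D a)).diffAt p),
    D_mul ((G.smb a).diffAt p) ((hu.D a).diffAt p)]

theorem div_Z (hu : G.M.Sm u) (p : X) : ∑ a, (G.D a (G.Z u a) p + G.b a p * G.Z u a p) =
    ∑ a, ∑ e, (G.D a (G.D e u) p * G.D e (G.D a u) p + G.D e u p *
      (∑ c, (G.M.pre.II a c e p - G.M.pre.II e c a p) * G.D c (G.D a u) p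
        - G.D e (G.b a) p * G.D a u p)) - G.L0 u p ^ 2 := by
  have e1 : ∀ a, G.D a (G.Z u a) p = ∑ e, (G.D e u p * G.D a (G.D e (G.D a u)) p +
      G.D a (G.D e u) p * G.D e (G.D a u) p) -
      (G.D a u p * G.D a (G.L0 u) p + G.D a (G.D a u) p * G.L0 u p) := fun a => by
    unfold Z
    rw [D, D_sub ((sm_sum _ fun e _ => (hu.D e).mul ((hu.D a).D e)).diffAt p)
      (((hu.D a).mul (smL0 hu)).diffAt p), D_mul ((hu.D a).diffAt p) ((smL0 hu).diffAt p),
      D_sum _ fun e _ => ((hu.D e).mul ((hu.D a).D e)).diffAt p]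
    congr 1
    exact Finset.sum_congr rfl fun e _ => D_mul ((hu.D e).diffAt p) (((hu.D a).D e).diffAt p) a
  have e2 : G.L0 u p ^ 2 = ∑ a, (G.D a (G.D a u) p + G.b a p * G.D a u p) * G.L0 u p := by
    rw [← Finset.sum_mul, ← L0_eq, sq]
  have e3 : ∑ a, G.D a u p * G.D a (G.L0 u) p = ∑ a, ∑ e, G.D e u p * (G.D e (G.D a (G.D a u)) p +
      (G.b a p * G.D e (G.D a u) p + G.D e (G.b a) p * G.D a u p)) := by
    rw [Finset.sum_comm]
    exact Finset.sum_congr rfl fun e _ => by rw [D_L0 hu, Finset.mul_sum]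
  have e4 : ∑ a, (G.D a (G.Z u a) p + G.b a p * G.Z u a p) =
      ∑ a, ∑ e, (G.D e u p * G.D a (G.D e (G.D a u)) p + G.D a (G.D e u) p * G.D e (G.D a u) p +
        G.b a p * (G.D e u p * G.D e (G.D a u) p)) - ∑ a, G.D a u p * G.D a (G.L0 u) p -
        ∑ a, (G.D a (G.D a u) p + G.b a p * G.D a u p) * G.L0 u p := by
    rw [← Finset.sum_sub_distrib, ← Finset.sum_sub_distrib]
    refine Finset.sum_congr rfl fun a _ => ?_
    rw [e1, Z, mul_sub, Finset.mul_sum, Finset.sum_add_distrib (f := fun e => _ + _)]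
    ring
  rw [e4, e2, e3, ← Finset.sum_sub_distrib]
  congr 1
  refine Finset.sum_congr rfl fun a _ => ?_
  rw [← Finset.sum_sub_distrib]
  refine Finset.sum_congr rfl fun e _ => ?_
  rw [← DD_comm (hu.D a) a e p]
  ring

/-- the constant of the `H²` estimate -/
def C2 (G : Gd d ι X) : ℝ :=
  16 * G.B ^ 2 * (Fintype.card ι : ℝ) ^ 6 + 2 * G.B * (Fintype.card ι : ℝ) ^ 2

theorem C2_nonneg (G : Gd d ι X) : 0 ≤ G.C2 := by
  have := G.one
  unfold C2
  positivity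

theorem g2_le (hu : G.M.Sm u) (p : X) : G.g2 u p ≤
    2 * ∑ a, (G.D a (G.Z u a) p + G.b a p * G.Z u a p) + 2 * G.L0 u p ^ 2 + G.C2 * G.g1 u p := by
  have h := h2_alg (fun a e => G.D a (G.D e u) p) (fun a => G.D a u p)
    (fun a e c => G.M.pre.II a c e p - G.M.pre.II e c a p) (fun e a => G.D e (G.b a) p)
    (B := G.B) (by linarith [G.one]) (fun a e c => (abs_sub _ _).trans (by
      linarith [G.IIle a c e p, G.IIle e c a p])) (fun a e => G.Dble a e p)
    fun a e => DD_comm hu a e p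
  rw [div_Z hu, g1_eq, g2, C2]
  linarith

/-- **local `H²` estimate** -/
theorem h2_loc {η : X → ℝ} (hη : G.M.Tst η) (hu : G.M.Sm u) :
    ∫ p, η p ^ 2 * G.g2 u p ∂G.nu ≤ ∫ p, (8 * (η p ^ 2 * G.L0 u p ^ 2) +
      2 * G.C2 * (η p ^ 2 * G.g1 u p) + 20 * (G.g1 η p * G.g1 u p)) ∂G.nu := by
  have tJ : ∀ a, G.M.Tst fun p => η p ^ 2 * G.Z u a p := fun a => tst_mul (tst_sq hη) (smZ hu a)
  have iJ : ∀ a, Integrable (fun p => G.D a (fun p => η p ^ 2 * G.Z u a p) p +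
      G.b a p * (η p ^ 2 * G.Z u a p)) G.nu := fun a =>
    (tst_intg ((tJ a).D a)).add (tst_intg (tst_mul' (G.smb a) (tJ a)))
  have h0 : ∫ p, ∑ a, (G.D a (fun p => η p ^ 2 * G.Z u a p) p +
      G.b a p * (η p ^ 2 * G.Z u a p)) ∂G.nu = 0 := by
    rw [integral_finsetSum _ fun a _ => iJ a]
    exact Finset.sum_eq_zero fun a _ => int_div (tJ a) a
  have iR : Integrable (fun p => 8 * (η p ^ 2 * G.L0 u p ^ 2) +
      2 * G.C2 * (η p ^ 2 * G.g1 u p) + 20 * (G.g1 η p * G.g1 u p)) G.nu :=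
    (((tst_intg (tst_mul (tst_sq hη) ((smL0 hu).pow 2))).const_mul _).add
      ((tst_intg (tst_mul (tst_sq hη) (smg1 hu))).const_mul _)).add
      ((tst_intg (tst_mul (tst_g1 hη) (smg1 hu))).const_mul _)
  have iS := integrable_finsetSum Finset.univ fun a _ => iJ a
  rw [← add_zero (∫ p, (8 * _ + _ + _) ∂G.nu), ← mul_zero (4 : ℝ), ← h0, ← integral_const_mul,
    ← integral_add iR (iS.const_mul 4)]
  refine integral_mono (tst_intg (tst_mul (tst_sq hη) (smg2 hu))) (iR.add (iS.const_mul 4))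
    fun p => ?_
  have e1 : ∀ a, G.M.pre.D a (fun p => η p ^ 2) p = 2 * η p * G.D a η p := fun a => by
    simp only [sq]
    rw [D_mul (hη.sm.diffAt p) (hη.sm.diffAt p)]; ring
  have e2 : ∑ a, (G.D a (fun p => η p ^ 2 * G.Z u a p) p + G.b a p * (η p ^ 2 * G.Z u a p)) =
      η p ^ 2 * ∑ a, (G.D a (G.Z u a) p + G.b a p * G.Z u a p) + 2 * η p *
        (∑ q : ι × ι, (G.D q.1 η p * G.D q.2 u p) * G.D q.2 (G.D q.1 u) p -
          G.M.pre.gam η u p * G.L0 u p) := by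
    rw [Fintype.sum_prod_type, gam_apply, Finset.sum_mul, ← Finset.sum_sub_distrib, Finset.mul_sum,
      Finset.mul_sum, ← Finset.sum_add_distrib]
    refine Finset.sum_congr rfl fun a _ => ?_
    rw [D, D_mul ((hη.sm.pow 2).diffAt p) ((smZ hu a).diffAt p), e1]
    have : ∑ e, (G.D a η p * G.D e u p) * G.D e (G.D a u) p =
        G.D a η p * ∑ e, G.D e u p * G.D e (G.D a u) p := by
      rw [Finset.mul_sum]; exact Finset.sum_congr rfl fun e _ => by ring
    simp only [this, Z]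
    ring
  have c1 : (∑ q : ι × ι, (G.D q.1 η p * G.D q.2 u p) * G.D q.2 (G.D q.1 u) p) ^ 2 ≤
      (G.g1 η p * G.g1 u p) * G.g2 u p := by
    refine (Finset.sum_mul_sq_le_sq_mul_sq _ _ _).trans (le_of_eq ?_)
    congr 1
    · rw [Fintype.sum_prod_type, g1_eq, g1_eq, Finset.sum_mul_sum]
      simp only [mul_pow]
    · rw [Fintype.sum_prod_type, g2, Finset.sum_comm]
  have c2 := gam_sq_le (G := G) η u p
  have h3 := mul_le_mul_of_nonneg_left (g2_le hu p) (sq_nonneg (η p))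
  simp only [e2]
  set S := ∑ q : ι × ι, (G.D q.1 η p * G.D q.2 u p) * G.D q.2 (G.D q.1 u) p
  set W := G.g1 η p * G.g1 u p
  have w0 : 0 ≤ W := mul_nonneg (g1_nonneg _ _) (g1_nonneg _ _)
  have a1 := mul_nonneg (sq_nonneg (η p)) (g2_nonneg (G := G) u p)
  have c3 : |8 * (η p * S)| ≤ η p ^ 2 * G.g2 u p + 16 * W := by
    refine abs_le_of_sq_le_sq ?_ (by positivity)
    nlinarith [mul_le_mul_of_nonneg_left c1 (sq_nonneg (η p)),
      sq_nonneg (η p ^ 2 * G.g2 u p - 16 * W)]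
  have c4 : 8 * (η p * G.M.pre.gam η u p * G.L0 u p) ≤ 4 * (η p ^ 2 * G.L0 u p ^ 2) + 4 * W := by
    nlinarith [sq_nonneg (η p * G.L0 u p - G.M.pre.gam η u p)]
  nlinarith [(abs_le.1 c3).1]

/-- **global `H²` estimate** -/
theorem h2 (G : Gd d ι X) : ∃ C : ℝ, 0 < C ∧ ∀ u, G.S2 u → G.S2 (G.L0 u) →
    Integrable (G.g2 u) G.nu ∧ G.n2 u ≤ C * (G.n0 (G.L0 u) + G.n1 u) := by
  obtain ⟨K, hK, h⟩ := G.exists_g1_cut
  have hC := G.C2_nonneg
  refine ⟨8 + 2 * G.C2 + 20 * K, by positivity, fun u hu hL => intg_of_cut (smg2 hu.sm).continuous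
    (g2_nonneg u) fun n => (h2_loc (G.tst_cut n) hu.sm).trans ?_⟩
  have h1 := hu.h1' hL
  have t := G.tst_cut n
  rw [n0, n1, ← integral_add hL.sq h1.d1, ← integral_const_mul]
  refine integral_mono ((((tst_intg (tst_mul (tst_sq t) ((smL0 hu.sm).pow 2))).const_mul _).add
      ((tst_intg (tst_mul (tst_sq t) (smg1 hu.sm))).const_mul _)).add
      ((tst_intg (tst_mul (tst_g1 t) (smg1 hu.sm))).const_mul _))
    ((hL.sq.add h1.d1).const_mul _) fun p => ?_
  have a1 : G.g1 (G.cut n) p ≤ K := (h n p).trans (div_le_self hK.le (by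
    have : (0 : ℝ) ≤ n := n.cast_nonneg
    linarith))
  have a2 : G.cut n p ^ 2 ≤ 1 := pow_le_one₀ (cut_nonneg n p) (cut_le n p)
  have a3 := g1_nonneg (G := G) u p
  have a4 := sq_nonneg (G.L0 u p)
  simp only
  nlinarith [mul_le_mul_of_nonneg_right a1 a3, mul_le_mul_of_nonneg_right a2 a3,
    mul_le_mul_of_nonneg_right a2 a4, mul_nonneg hC a4, mul_nonneg hK.le a4,
    mul_le_mul_of_nonneg_left (mul_le_mul_of_nonneg_right a2 a3) hC]

end Gd

end Crest.Agent.N250.Lin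

end
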