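import Crest.Agent.N250.Lin.Defs
import Crest.Agent.N222.F.Coord
import Crest.Agent.N222.F.Res
import Crest.Agent.R269.GEll_19

/-!
# Row 250, linear Gaussian theory (helper22): Weyl's lemma on a non-compact immersed manifold
(adapted from `N222/J/LinA`)
-/

set_option autoImplicit false
set_option linter.unusedSectionVars false
open MeasureTheory Set Filter Topology Function Metric
open scoped ContDiff
open Crest.GeometryTopology.CoordMetric
open Crest.Agent.R202.Ell (divA tsupport_divA_subset)
open Crest.Agent.R269.GEll_19 (gen_ell Wk)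
open Crest.Agent.N222 Crest.Agent.N222.Imm

noncomputable section

namespace Crest.Agent.N250.Lin

namespace Wy

section Euclid

open Crest.Agent.R202.Tens Crest.Agent.R247.Bo84

variable {n : ℕ} {g : MetricField n} {U : Set (E (Fin n))}

/-- the coefficient matrix `√det g · g⁻¹` -/
def cA (g : MetricField n) (y : E (Fin n)) : Matrix (Fin n) (Fin n) ℝ :=
  Real.sqrt (g y).det • inverseField g y

theorem cA_apply (g : MetricField n) (y : E (Fin n)) (i j : Fin n) :
    cA g y i j = Real.sqrt (g y).det * inverseField g y i j := rfl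

theorem lap_eq_divA (g : MetricField n) (f : E (Fin n) → ℝ) (x : E (Fin n)) :
    laplaceBeltrami g f x = (1 / Real.sqrt (g x).det) * divA (cA g) f x := by
  unfold laplaceBeltrami divA
  congr 1
  refine Finset.sum_congr rfl fun i _ => ?_
  congr 1
  funext y
  rw [Finset.mul_sum]
  exact Finset.sum_congr rfl fun j _ => by rw [cA_apply]; ring

theorem divA_eq (hg : IsRiemannianOn g U) {x : E (Fin n)} (hx : x ∈ U) (f : E (Fin n) → ℝ) :
    divA (cA g) f x = Real.sqrt (g x).det * laplaceBeltrami g f x := by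
  have h : 0 < Real.sqrt (g x).det := Real.sqrt_pos.2 (det_pos hg hx)
  rw [lap_eq_divA]
  field_simp

theorem cA_smooth (hg : IsRiemannianOn g U) (i j : Fin n) :
    ContDiffOn ℝ ∞ (fun y => cA g y i j) U := fun _ hx =>
  ((contDiffAt_sqrt_det hg hx).mul (contDiffAt_inv hg hx i j)).contDiffWithinAt

theorem cA_posDef (hg : IsRiemannianOn g U) {x : E (Fin n)} (hx : x ∈ U) : (cA g x).PosDef :=
  (hg.posDef x hx).inv.smul (Real.sqrt_pos.2 (det_pos hg hx))

theorem divA_zero_off (A : E (Fin n) → Matrix (Fin n) (Fin n) ℝ) {f : E (Fin n) → ℝ}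
    {x : E (Fin n)} (hx : x ∉ tsupport f) : divA A f x = 0 :=
  image_eq_zero_of_notMem_tsupport fun h => hx (tsupport_divA_subset A f h)

theorem lb_congr (g : MetricField n) {u v : E (Fin n) → ℝ} {x : E (Fin n)}
    (h : u =ᶠ[𝓝 x] v) : laplaceBeltrami g u x = laplaceBeltrami g v x := by
  unfold laplaceBeltrami pderiv
  congr 1
  refine Finset.sum_congr rfl fun i _ => ?_
  congr 1
  refine Filter.EventuallyEq.fderiv_eq ?_
  filter_upwards [h.eventuallyEq_nhds] with y hy
  simp only [hy.fderiv_eq]

end Euclid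

variable {d : ℕ} {ι : Type} [Fintype ι] [DecidableEq ι] {X : Type} [TopologicalSpace X]
  [T2Space X] [SecondCountableTopology X] [MeasurableSpace X] [BorelSpace X]
  {M : Imm d ι X} {q f u : X → ℝ} {e : OpenPartialHomeomorph X (E (Fin d))}

theorem lap_of_ev (he : IsChart M.x e) {p : X} (hp : p ∈ e.source) {y : X → ℝ}
    {v : E (Fin d) → ℝ} (hv : ContDiffAt ℝ ∞ v (e p)) (h : y ∘ e.symm =ᶠ[𝓝 (e p)] v) :
    M.pre.lap y p = laplaceBeltrami (gram (M.x ∘ e.symm)) v (e p) := by
  rw [lap_coord he hp ((hv.congr_of_eventuallyEq h).of_le R247.Bo84.two_le_infty), lb_congr _ h]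

theorem loc_int0 (he : IsChart M.x e) (hu : Integrable u M.mu) :
    LocallyIntegrableOn (fun z => u (e.symm z)) e.target := by
  have h1 := ((integrableOn_chart he u).1 hu.integrableOn).locallyIntegrableOn.continuousOn_mul
    ((continuousOn_jac he).inv₀ fun z hz => (jac_pos (he.inj z hz)).ne')
    e.open_target.isLocallyClosed
  rw [locallyIntegrableOn_iff e.open_target.isLocallyClosed] at h1 ⊢
  refine fun K hK hc => (h1 K hK hc).congr_fun (fun z hz => ?_) hc.measurableSet
  exact inv_mul_cancel_left₀ (jac_pos (he.inj z (hK hz))).ne' _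

theorem loc_int (he : IsChart M.x e) (hu : LocallyIntegrable u M.mu) :
    LocallyIntegrableOn (fun z => u (e.symm z)) e.target := by
  rw [locallyIntegrableOn_iff e.open_target.isLocallyClosed]
  intro K hK hc
  have h1 : IsCompact (e.symm '' K) := hc.image_of_continuousOn (e.continuousOn_symm.mono hK)
  have h2 := loc_int0 he ((integrable_indicator_iff h1.measurableSet).2
    (hu.integrableOn_isCompact h1))
  rw [locallyIntegrableOn_iff e.open_target.isLocallyClosed] at h2
  exact (h2 K hK hc).congr_fun (fun z hz => indicator_of_mem (mem_image_of_mem _ hz) _)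
    hc.measurableSet

theorem ae_back (he : IsChart M.x e) (hu : AEStronglyMeasurable u M.mu) {v : E (Fin d) → ℝ}
    (hv : ContinuousOn v e.target) (h : ∀ᵐ z, z ∈ e.target → v z = u (e.symm z)) :
    (fun p => v (e p)) =ᵐ[M.mu.restrict e.source] u := by
  have m1 : AEStronglyMeasurable (fun p => v (e p) - u p) (M.mu.restrict e.source) :=
    ((hv.comp e.continuousOn e.mapsTo).aestronglyMeasurable e.open_source.measurableSet).sub
      hu.restrict
  have h1 : ∫⁻ p in e.source, ‖v (e p) - u p‖ₑ ∂M.mu = 0 := by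
    rw [setLIntegral_chart he]
    refine lintegral_eq_zero_of_ae_eq_zero ?_
    filter_upwards [ae_restrict_of_ae h, ae_restrict_mem e.open_target.measurableSet] with z h1 hz
    simp [e.right_inv hz, h1 hz]
  filter_upwards [(lintegral_eq_zero_iff' m1.enorm).1 h1] with p hp
  simpa [sub_eq_zero] using hp

/-- regularity in one chart -/
theorem reg (he : IsChart M.x e) (hq : M.Sm q) (hf : M.Sm f) (hu : LocallyIntegrable u M.mu)
    (h : ∀ φ, M.Tst φ → ∫ p, u p * (-M.pre.lap φ p + q p * φ p) ∂M.mu = ∫ p, f p * φ p ∂M.mu) :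
    ∃ v : E (Fin d) → ℝ, ContDiffOn ℝ ∞ v e.target ∧
      (fun p => v (e p)) =ᵐ[M.mu.restrict e.source] u ∧ ∀ p ∈ e.source,
        -laplaceBeltrami (gram (M.x ∘ e.symm)) v (e p) + q p * v (e p) = f p := by
  have hg := he.isRiemannianOn
  have hJ : ContDiffOn ℝ ∞ (fun z => √(gram (M.x ∘ e.symm) z).det) e.target := fun z hz =>
    (R247.Bo84.contDiffAt_sqrt_det hg hz).contDiffWithinAt
  obtain ⟨v, hv, hvu, hve⟩ := gen_ell (U := e.target) (a := cA (gram (M.x ∘ e.symm)))
    (b := fun _ _ => 0) (c := fun z => -(√(gram (M.x ∘ e.symm) z).det * q (e.symm z)))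
    ⟨e.open_target, cA_smooth hg, fun _ hz => cA_posDef hg hz, fun _ => contDiffOn_const,
      (hJ.mul (hq.chart he)).neg⟩
    (f := fun z => -(√(gram (M.x ∘ e.symm) z).det * f (e.symm z))) (hJ.mul (hf.chart he)).neg
    (loc_int he hu) (by
      intro φ h1 h2 h3
      have a1 : ∀ z ∈ e.target, push e.symm φ (e.symm z) = φ z := fun z hz => push_apply φ hz
      have a2 : tsupport (push e.symm φ) ⊆ e.source := by
        rw [tsupport_push h2 h3]
        rintro _ ⟨z, hz, rfl⟩
        exact e.map_target (h3 hz)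
      have a3 : ∀ z ∈ e.target, push e.symm φ ∘ e.symm =ᶠ[𝓝 z] φ := fun z hz =>
        eventually_of_mem (e.open_target.mem_nhds hz) a1
      have a4 : M.Sm (push e.symm φ) := (smOn_of_chart he subset_rfl fun p hp =>
        h1.contDiffAt.congr_of_eventuallyEq (a3 _ (e.map_source hp))).sm_of_tsupport a2
      have a4' : HasCompactSupport (push e.symm φ) := by
        rw [HasCompactSupport, tsupport_push h2 h3]
        exact h2.isCompact.image_of_continuousOn (e.continuousOn_symm.mono h3)
      have a5 : ∀ z ∈ e.target, M.pre.lap (push e.symm φ) (e.symm z) =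
          laplaceBeltrami (gram (M.x ∘ e.symm)) φ z := fun z hz => by
        rw [lap_of_ev he (e.map_target hz) h1.contDiffAt (a3 _ (e.map_source (e.map_target hz))),
          e.right_inv hz]
      have a6 := h _ ⟨a4, a4'⟩
      rw [integral_chart he, integral_chart he] at a6
      · rw [← setIntegral_eq_integral_of_forall_compl_eq_zero (s := e.target),
          ← setIntegral_eq_integral_of_forall_compl_eq_zero (s := e.target)
            (f := fun z => -(_ * _) * φ z), ← neg_inj, ← integral_neg, ← integral_neg]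
        · refine (setIntegral_congr_fun e.open_target.measurableSet fun z hz => ?_).trans
            (a6.trans (setIntegral_congr_fun e.open_target.measurableSet fun z hz => ?_))
          · simp only [Wk, divA_eq hg hz, a1 z hz, a5 z hz, jac_eq_sqrt_det, zero_mul, pderiv,
              fderiv_fun_const, smul_eq_mul, Pi.zero_apply, zero_apply, Finset.sum_const_zero]
            ring
          · simp only [a1 z hz, jac_eq_sqrt_det, smul_eq_mul]
            ring
        · intro z hz
          rw [image_eq_zero_of_notMem_tsupport fun h => hz (h3 h), mul_zero]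
        · intro z hz
          simp [Wk, divA_zero_off _ fun h => hz (h3 h), pderiv,
            image_eq_zero_of_notMem_tsupport fun h => hz (h3 h)]
      · intro p hp
        by_contra h0
        exact hp (by simp [image_eq_zero_of_notMem_tsupport fun h => h0 (a2 h)])
      · intro p hp
        by_contra h0
        exact hp (by simp [image_eq_zero_of_notMem_tsupport fun h => h0 (a2 h),
          lap_eq_zero_of_notMem fun h => h0 (a2 h)]))
  refine ⟨v, hv, ae_back he hu.aestronglyMeasurable hv.continuousOn hvu, fun p hp => ?_⟩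
  have hz := e.map_source hp
  have b1 := hve _ hz
  have b2 : 0 < √(gram (M.x ∘ e.symm) (e p)).det :=
    jac_eq_sqrt_det (M.x ∘ e.symm) _ ▸ jac_pos (he.inj _ hz)
  simp only [divA_eq hg hz, zero_mul, Finset.sum_const_zero, e.left_inv hp] at b1
  refine mul_left_cancel₀ b2.ne' ?_
  linarith

/-- **Weyl's lemma** for `-Δ + q` -/
theorem weyl0 (hq : M.Sm q) (hf : M.Sm f) (hu : LocallyIntegrable u M.mu)
    (h : ∀ φ, M.Tst φ → ∫ p, u p * (-M.pre.lap φ p + q p * φ p) ∂M.mu = ∫ p, f p * φ p ∂M.mu) :
    ∃ y, M.Sm y ∧ y =ᵐ[M.mu] u ∧ ∀ p, -M.pre.lap y p + q p * y p = f p := by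
  choose v hv hvu hve using fun p => reg (M.isChart p) hq hf hu h
  have hc : ∀ p, ContinuousOn (fun z => v p (M.ch p z)) (M.ch p).source := fun p =>
    (hv p).continuousOn.comp (M.ch p).continuousOn (M.ch p).mapsTo
  have h1 : ∀ p, ∀ z ∈ (M.ch p).source, v z (M.ch z z) = v p (M.ch p z) := fun p z hz =>
    Measure.eqOn_open_of_ae_eq (μ := M.mu) (U := (M.ch z).source ∩ (M.ch p).source)
      (EventuallyEq.trans (ae_restrict_of_ae_restrict_of_subset inter_subset_left (hvu z))
        (EventuallyEq.symm (ae_restrict_of_ae_restrict_of_subset inter_subset_right (hvu p))))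
      ((M.ch z).open_source.inter (M.ch p).open_source) ((hc z).mono inter_subset_left)
      ((hc p).mono inter_subset_right) ⟨M.mem z, hz⟩
  have h2 : ∀ p, (fun z => v z (M.ch z z)) ∘ (M.ch p).symm =ᶠ[𝓝 (M.ch p p)] v p := fun p => by
    filter_upwards [(M.ch p).open_target.mem_nhds ((M.ch p).map_source (M.mem p))] with z hz
    rw [comp_apply, h1 p _ ((M.ch p).map_target hz), (M.ch p).right_inv hz]
  have h3 : ∀ p, ContDiffAt ℝ ∞ (v p) (M.ch p p) := fun p =>
    (hv p).contDiffAt ((M.ch p).open_target.mem_nhds ((M.ch p).map_source (M.mem p)))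
  have hy : M.Sm fun z => v z (M.ch z z) :=
    sm_of_charts fun p => ⟨M.ch p, M.isChart p, M.mem p, (h3 p).congr_of_eventuallyEq (h2 p)⟩
  refine ⟨_, hy, ?_, fun p => ?_⟩
  · obtain ⟨s, hs, hs'⟩ := TopologicalSpace.countable_cover_nhds
      (f := fun p => (M.ch p).source) fun p => (M.ch p).open_source.mem_nhds (M.mem p)
    have h4 : ∀ᵐ z ∂M.mu, ∀ p ∈ s, z ∈ (M.ch p).source → v p (M.ch p z) = u z :=
      (ae_ball_iff hs).2 fun p _ => (ae_restrict_iff' (M.ch p).open_source.measurableSet).1 (hvu p)
    filter_upwards [h4] with z hz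
    obtain ⟨p, hp, hz'⟩ := mem_iUnion₂.1 (hs'.symm ▸ mem_univ z : z ∈ ⋃ p ∈ s, (M.ch p).source)
    rw [h1 p z hz', hz p hp hz']
  · rw [lap_of_ev (M.isChart p) (M.mem p) (h3 p) (h2 p)]
    exact hve p p (M.mem p)

end Wy

variable {d : ℕ} {ι : Type} [Fintype ι] [DecidableEq ι] {X : Type} [TopologicalSpace X]
  [T2Space X] [SecondCountableTopology X] [MeasurableSpace X] [BorelSpace X]

namespace Gd

variable {G : Gd d ι X} {g u : X → ℝ}

theorem locInt_mu (hu : LocallyIntegrable u G.nu) : LocallyIntegrable u G.M.mu := by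
  have := locallyCompact (M := G.M)
  rw [locallyIntegrable_iff]
  intro K hK
  have h1 := (G.intg_nu _).1 ((integrable_indicator_iff hK.measurableSet).2
    (hu.integrableOn_isCompact hK))
  have h2 := h1.integrableOn.mul_continuousOn (G.smF.neg.exp.continuous.continuousOn) hK
  refine h2.congr_fun (fun p hp => ?_) hK.measurableSet
  simp only [indicator_of_mem hp, mul_assoc, ← Real.exp_add, add_neg_cancel, Real.exp_zero, mul_one]

theorem L_conj {θ : X → ℝ} (hθ : G.M.Sm θ) (p : X) :
    G.L (fun q => Real.exp (-(G.F q / 2)) * θ q) p = Real.exp (-(G.F p / 2)) * G.M.pre.lap θ p +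
      G.L (fun q => Real.exp (-(G.F q / 2))) p * θ p := by
  have hE : G.M.Sm fun q => Real.exp (-(G.F q / 2)) :=
    G.smF.comp (g := fun s => Real.exp (-(s / 2))) (by fun_prop)
  have e : ∀ a, G.M.pre.D a (fun q => Real.exp (-(G.F q / 2))) p =
      Real.exp (-(G.F p / 2)) * (-(1 / 2)) * G.M.pre.D a G.F p := fun a =>
    D_comp (G.smF.diffAt p) (g := fun s => Real.exp (-(s / 2)))
      ((hasDerivAt_id _).div_const 2).neg.exp a
  have e2 : G.M.pre.gam (fun q => Real.exp (-(G.F q / 2))) θ p =
      Real.exp (-(G.F p / 2)) * (-(1 / 2)) * G.M.pre.gam G.F θ p := by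
    simp only [gam_apply, e, Finset.mul_sum, mul_assoc]
  rw [L, L0_mul hE hθ, e2, L, L0, lapF_apply]
  ring

/-- **Weyl's lemma** : very weak solutions are smooth -/
theorem weyl (hg : G.M.Sm g) (hu : LocallyIntegrable u G.nu)
    (h : ∀ φ, G.M.Tst φ → G.ip u (G.L φ) = G.ip g φ) :
    ∃ y, G.M.Sm y ∧ y =ᵐ[G.nu] u ∧ ∀ p, G.L y p = g p := by
  have := locallyCompact (M := G.M)
  have hE : G.M.Sm fun q => Real.exp (-(G.F q / 2)) :=
    G.smF.comp (g := fun s => Real.exp (-(s / 2))) (by fun_prop)
  have hE' : G.M.Sm fun q => Real.exp (G.F q / 2) :=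
    G.smF.comp (g := fun s => Real.exp (s / 2)) (by fun_prop)
  have e1 : ∀ p, Real.exp (G.F p) = Real.exp (G.F p / 2) * Real.exp (G.F p / 2) := fun p => by
    rw [← Real.exp_add, add_halves]
  have e2 : ∀ p, Real.exp (-(G.F p / 2)) * Real.exp (G.F p / 2) = 1 := fun p => by
    rw [← Real.exp_add, neg_add_cancel, Real.exp_zero]
  obtain ⟨y, hy, hyu, he⟩ := Wy.weyl0 (M := G.M) (u := fun p => u p * Real.exp (G.F p / 2))
    ((smL hE).mul hE').neg (hg.mul hE').neg ((locInt_mu hu).mul_continuous hE'.continuous)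
    fun θ hθ => by
      have h1 := h _ (tst_mul' hE hθ)
      simp only [ip, int_nu, L_conj hθ.sm] at h1
      rw [← neg_inj, ← integral_neg, ← integral_neg] at h1
      refine Eq.trans (integral_congr_ae (.of_forall fun p => ?_))
        (h1.trans (integral_congr_ae (.of_forall fun p => ?_)))
      · simp only [e1 p]
        linear_combination (u p * Real.exp (G.F p / 2) * G.M.pre.lap θ p) * e2 p
      · simp only [e1 p]
        linear_combination (-(g p * Real.exp (G.F p / 2) * θ p)) * e2 p
  refine ⟨_, hE.mul hy, G.nu_ac.ae_le ?_, fun p => ?_⟩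
  · filter_upwards [hyu] with p hp
    simp only [hp]
    linear_combination u p * e2 p
  · rw [L_conj hy]
    have := he p
    linear_combination (-Real.exp (-(G.F p / 2))) * this + (g p -
      G.L (fun q => Real.exp (-(G.F q / 2))) p * y p) * e2 p

end Gd

end Crest.Agent.N250.Lin

end
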