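import Crest.Agent.N250.Lin.Fam
import Crest.Agent.N250.Lin.H2
import Crest.Agent.N250.Lin.Weyl
import Crest.Agent.N222.J.LinA0

/-!
# Row 250, linear Gaussian theory (helper22): the Green operator
-/

set_option autoImplicit false
set_option linter.unusedSectionVars false
open MeasureTheory Set Filter Topology Function
open scoped ContDiff InnerProductSpace RealInnerProductSpace
open Crest.Agent.N222 Crest.Agent.N222.Imm

noncomputable section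

namespace Crest.Agent.N250.Lin

variable {d : ℕ} {ι : Type} [Fintype ι] [DecidableEq ι] {X : Type} [TopologicalSpace X]
  [T2Space X] [SecondCountableTopology X] [MeasurableSpace X] [BorelSpace X]

namespace Gd

/-- smooth square integrable functions -/
def SS (G : Gd d ι X) : Submodule ℝ (X → ℝ) where
  carrier := {u | G.S2 u}
  add_mem' hu hv := S2.add hu hv
  zero_mem' := ⟨sm_const 0, MemLp.zero⟩
  smul_mem' c _ hu := S2.const_mul hu c

/-- test functions -/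
def TT (G : Gd d ι X) : Submodule ℝ (X → ℝ) where
  carrier := {u | G.M.Tst u}
  add_mem' hu hv := ⟨hu.sm.add hv.sm, hu.cs.add hv.cs⟩
  zero_mem' := ⟨sm_const 0, HasCompactSupport.zero⟩
  smul_mem' c _ hu := tst_mul' (sm_const c) hu

/-- the domain of `L` -/
def Dom (G : Gd d ι X) : Submodule ℝ (X → ℝ) where
  carrier := {u | G.S2 u ∧ G.S2 (G.L u)}
  add_mem' {u v} hu hv := ⟨hu.1.add hv.1, by
    rw [show G.L (u + v) = _ from funext (L_add hu.1.sm hv.1.sm)]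
    exact hu.2.add hv.2⟩
  zero_mem' := ⟨G.SS.zero_mem, by
    rw [show G.L 0 = 0 from funext fun p => L_zero (by simp)]
    exact G.SS.zero_mem⟩
  smul_mem' c u hu := ⟨hu.1.const_mul c, by
    rw [show G.L (c • u) = _ from funext (L_const_mul c hu.1.sm)]
    exact hu.2.const_mul c⟩

/-- the class in `L²` -/
def toL (G : Gd d ι X) : G.SS →ₗ[ℝ] Lp ℝ 2 G.nu where
  toFun u := MemLp.toLp u.1 (S2.l2 u.2)
  map_add' u v := MemLp.toLp_add (S2.l2 u.2) (S2.l2 v.2)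
  map_smul' c u := MemLp.toLp_const_smul c (S2.l2 u.2)

variable {G : Gd d ι X} {f g u v w : X → ℝ} {κ : Type} [Fintype κ] {ψ : κ → X → ℝ}

theorem inner_toL (w : Lp ℝ 2 G.nu) (v : G.SS) : ⟪w, G.toL v⟫ = G.ip w v.1 := by
  rw [L2.inner_def]
  refine integral_congr_ae ?_
  filter_upwards [MemLp.coeFn_toLp (S2.l2 v.2)] with p hp
  rw [show G.toL v p = v.1 p from hp, RCLike.inner_apply, conj_trivial, mul_comm]

theorem ip_congr (h : u =ᵐ[G.nu] w) (v : X → ℝ) : G.ip u v = G.ip w v :=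
  integral_congr_ae (h.mono fun p hp => by simp only [hp])

theorem inner_toL' (u v : G.SS) : ⟪G.toL u, G.toL v⟫ = G.ip u.1 v.1 := by
  rw [inner_toL]
  exact ip_congr (MemLp.coeFn_toLp (S2.l2 u.2)) _

/-- `L` on test functions -/
def LT (G : Gd d ι X) : G.TT →ₗ[ℝ] G.SS where
  toFun u := ⟨G.L u.1, tst_s2 (tstL u.2)⟩
  map_add' u v := Subtype.ext (funext (L_add (Tst.sm u.2) (Tst.sm v.2)))
  map_smul' c u := Subtype.ext (funext (L_const_mul c (Tst.sm u.2)))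

/-- the inclusion -/
def IT (G : Gd d ι X) : G.TT →ₗ[ℝ] G.SS := Submodule.inclusion fun _ h => tst_s2 h

theorem ip_neg (u v : X → ℝ) : G.ip (fun p => -u p) v = -G.ip u v := by
  simp only [ip, neg_mul, integral_neg]

/-- the shifted operator is onto -/
theorem Fam.solve (h : G.Fam ψ) : ∃ K : ℝ, ∀ g, G.S2 g → ∃ u, G.S2 u ∧
    ∀ p, G.L u p = g p + ∑ k, K * G.ip (ψ k) u * ψ k p := by
  obtain ⟨c, hc, h1⟩ := h.coer'
  refine ⟨c⁻¹, fun g hg => ?_⟩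
  let Ψ : κ → Lp ℝ 2 G.nu := fun k => G.toL ⟨ψ k, h.s2 k⟩
  let T : G.TT →ₗ[ℝ] Lp ℝ 2 G.nu := -(G.toL ∘ₗ G.LT) +
    ∑ k, c⁻¹ • (innerₗ _ (Ψ k) ∘ₗ G.toL ∘ₗ G.IT).smulRight (Ψ k)
  have hT : ∀ (w : Lp ℝ 2 G.nu) (φ : G.TT), ⟪w, T φ⟫ =
      -G.ip w (G.L φ.1) + ∑ k, c⁻¹ * G.ip w (ψ k) * G.ip (ψ k) φ.1 := fun w φ => by
    simp only [T, LinearMap.add_apply, LinearMap.neg_apply, LinearMap.sum_apply,
      LinearMap.smul_apply, LinearMap.smulRight_apply, LinearMap.comp_apply, innerₗ_apply_apply,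
      inner_add_right, inner_neg_right, inner_sum, inner_smul_right, Ψ, inner_toL']
    simp only [inner_toL]
    congr 1
    exact Finset.sum_congr rfl fun k _ => by
      rw [mul_assoc, mul_comm (G.ip w _)]; rfl
  obtain ⟨w, hw⟩ := La.hilb T (G.toL ∘ₗ G.IT) hc (fun φ => by
    have a1 := h1 _ (tst_h1 φ.2)
    have a2 : (G.toL (G.IT φ) : X → ℝ) =ᵐ[G.nu] φ.1 := MemLp.coeFn_toLp (tst_s2 φ.2).l2
    rw [real_inner_comm, LinearMap.comp_apply, hT, ← real_inner_self_eq_norm_sq, inner_toL']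
    simp only [ip_congr a2]
    rw [ip_comm _ (G.L _), ip_L_tst (Tst.sm φ.2) φ.2, neg_neg]
    simp only [ip_comm φ.1, mul_assoc, ← sq, ← Finset.mul_sum]
    refine le_trans ?_ a1
    rw [ip_self]
    exact mul_le_mul_of_nonneg_left (le_add_of_nonneg_right (n1_nonneg _)) hc.le)
    (-G.toL ⟨g, hg⟩)
  have sg := hg.add (s2_lc h.s2 fun k => c⁻¹ * G.ip w (ψ k))
  obtain ⟨y, hy, hyw, he⟩ := weyl sg.sm ((Lp.memLp w).locallyIntegrable one_le_two) fun φ hφ => by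
    have a1 := hw ⟨φ, hφ⟩
    rw [hT, inner_neg_left, LinearMap.comp_apply, inner_toL'] at a1
    rw [ip_comm _ φ, ip_add (tst_s2 hφ) hg (s2_lc h.s2 _), ip_lc (tst_s2 hφ) h.s2]
    simp only [ip_comm φ]
    change -G.ip w (G.L φ) + ∑ k, c⁻¹ * G.ip w (ψ k) * G.ip (ψ k) φ = -G.ip g φ at a1
    linarith
  refine ⟨y, ⟨hy, (Lp.memLp w).ae_eq hyw.symm⟩, fun p => ?_⟩
  simp only [he p, ip_comm (ψ _), ip_congr hyw]

theorem s2_L_of (hψ : ∀ k, G.S2 (ψ k)) (hg : G.S2 g) {c : κ → ℝ}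
    (hL : ∀ p, G.L u p = g p + ∑ k, c k * ψ k p) : G.S2 (G.L u) := by
  rw [show G.L u = _ from funext hL]
  exact hg.add (s2_lc hψ c)

/-- uniqueness -/
theorem Fam.uniq (h : G.Fam ψ) {c : κ → ℝ} (hu : G.S2 u) (hL : ∀ p, G.L u p = ∑ k, c k * ψ k p)
    (h0 : ∀ k, G.ip (ψ k) u = 0) : u = 0 ∧ c = 0 := by
  obtain ⟨c₀, hc, h1⟩ := h.coer
  have e : G.L u = fun p => ∑ k, c k * ψ k p := funext hL
  have s2 : G.S2 (G.L u) := e ▸ s2_lc h.s2 c
  have a1 := h1 u (hu.h1 s2) h0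
  have a2 := ip_L hu s2 (hu.h1 s2)
  rw [e, ip_comm, ip_lc hu h.s2] at a2
  simp only [ip_comm u, h0, mul_zero, Finset.sum_const_zero] at a2
  have a3 : u = 0 := eq_zero_of_n0 hu (le_antisymm (by
    nlinarith [n0_nonneg (G := G) u, n1_nonneg (G := G) u]) (n0_nonneg _))
  exact ⟨a3, li_zero h.li fun p => by rw [← hL, a3]; exact L_zero (by simp)⟩

theorem Fam.uniq' (h : G.Fam ψ) {c c' : κ → ℝ} (hu : G.S2 u) (hv : G.S2 v)
    (hL : ∀ p, G.L u p = g p + ∑ k, c k * ψ k p) (hL' : ∀ p, G.L v p = g p + ∑ k, c' k * ψ k p)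
    (h0 : ∀ k, G.ip (ψ k) u = G.ip (ψ k) v) : u = v ∧ c = c' := by
  obtain ⟨h1, h2⟩ := h.uniq (c := fun k => c k - c' k) (hu.sub hv) (fun p => by
    simp only [L_sub hu.sm hv.sm, hL, hL', sub_mul, Finset.sum_sub_distrib]; ring)
    fun k => by rw [ip_sub (h.s2 k) hu hv, h0, sub_self]
  exact ⟨funext fun p => sub_eq_zero.1 (congrFun h1 p), funext fun k => sub_eq_zero.1 (congrFun h2 k)⟩

/-- **existence** -/
theorem Fam.green (h : G.Fam ψ) (g : X → ℝ) (y : κ → ℝ) (hg : G.S2 g) :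
    ∃ (u : X → ℝ) (c : κ → ℝ), G.H1 u ∧ (∀ p, G.L u p = g p + ∑ k, c k * ψ k p) ∧
      ∀ k, G.ip (ψ k) u = y k := by
  obtain ⟨K, hK⟩ := h.solve
  choose z hz hLz using fun l => hK _ (h.s2 l)
  obtain ⟨u, hu, hLu⟩ := hK g hg
  have key : ∀ (x : κ → ℝ) p, G.L (fun p => ∑ l, x l * z l p) p =
      ∑ k, (x k + K * ∑ l, x l * G.ip (ψ k) (z l)) * ψ k p := fun x p => by
    simp only [L_lc fun l => (hz l).sm, hLz, mul_add, add_mul, Finset.sum_add_distrib,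
      Finset.mul_sum, Finset.sum_mul]
    congr 1
    rw [Finset.sum_comm]
    exact Finset.sum_congr rfl fun _ _ => Finset.sum_congr rfl fun _ _ => by ring
  obtain ⟨x, hx⟩ := solve_lin (fun k l => G.ip (ψ k) (z l)) (fun x hx => by
    have := (h.uniq (s2_lc hz x) (key x) fun k => by rw [ip_lc (h.s2 k) hz, hx]).2
    simpa only [hx, mul_zero, add_zero] using this) fun k => y k - G.ip (ψ k) u
  have hL : ∀ p, G.L (fun p => u p + ∑ l, x l * z l p) p = g p +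
      ∑ k, (K * G.ip (ψ k) u + (x k + K * ∑ l, x l * G.ip (ψ k) (z l))) * ψ k p := fun p => by
    rw [L_add hu.sm (s2_lc hz x).sm, hLu, key, add_assoc, ← Finset.sum_add_distrib]
    simp only [add_mul]
  exact ⟨_, _, (hu.add (s2_lc hz x)).h1 (s2_L_of h.s2 hg hL), hL, fun k => by
    rw [ip_add (h.s2 k) hu (s2_lc hz x), ip_lc (h.s2 k) hz, hx, add_sub_cancel]⟩

theorem n0_cmul_le (hu : G.S2 u) : G.n0 (fun p => G.c p * u p) ≤ G.B ^ 2 * G.n0 u := by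
  rw [n0, n0, ← integral_const_mul]
  refine integral_mono hu.cmul.sq (hu.sq.const_mul _) fun p => ?_
  simp only [mul_pow]
  refine mul_le_mul_of_nonneg_right ?_ (sq_nonneg _)
  rw [← sq_abs]
  exact pow_le_pow_left₀ (abs_nonneg _) (G.cle p) 2

/-- **the a-priori estimate** -/
theorem Fam.est (h : G.Fam ψ) : ∃ C : ℝ, 0 < C ∧ ∀ (u g : X → ℝ) (c : κ → ℝ), G.S2 u → G.S2 g →
    (∀ p, G.L u p = g p + ∑ k, c k * ψ k p) → G.H1 u ∧ Integrable (G.g2 u) G.nu ∧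
      G.n0 u + G.n1 u + G.n2 u + ∑ k, c k ^ 2 ≤ C * (G.n0 g + ∑ k, G.ip (ψ k) u ^ 2) := by
  obtain ⟨C, hC, h1⟩ := h.gap
  obtain ⟨C', hC', h2⟩ := G.h2
  obtain ⟨Θ, hΘ, hΘ'⟩ : ∃ Θ : ℝ, 0 ≤ Θ ∧ Θ = ∑ k, G.n0 (ψ k) :=
    ⟨_, Finset.sum_nonneg fun k _ => n0_nonneg _, rfl⟩
  refine ⟨C + C' * (4 + (4 * Θ + 2 * G.B ^ 2 + 1) * C), by positivity,
    fun u g c hu hg hL => ?_⟩
  have s2 := s2_L_of h.s2 hg hL
  have hu1 := hu.h1 s2
  obtain ⟨i2, a2⟩ := h2 u hu (s2_L0 hu s2)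
  refine ⟨hu1, i2, ?_⟩
  have a1 := h1 u c (√(G.n0 g)) hu1 fun v hv => by
    have b1 := ip_L_tst hu.sm hv
    rw [show G.L u = _ from funext hL, ip_comm, ip_add (tst_s2 hv) hg (s2_lc h.s2 c),
      ip_lc (tst_s2 hv) h.s2] at b1
    simp only [ip_comm v] at b1
    rw [show G.Q u v + ∑ k, c k * G.ip (ψ k) v = -G.ip g v by linarith, abs_neg,
      ← Real.sqrt_mul (n0_nonneg _)]
    exact Real.abs_le_sqrt ((ip_sq_le hg (tst_s2 hv)).trans (mul_le_mul_of_nonneg_left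
      (le_add_of_nonneg_right (n1_nonneg _)) (n0_nonneg _)))
  rw [Real.sq_sqrt (n0_nonneg _)] at a1
  have a3 := n0_add_le s2 (hu.cmul.const_mul (-1))
  rw [n0_const_mul] at a3
  simp only [L, neg_mul, one_mul, add_neg_cancel_right, even_two, Even.neg_pow, one_pow] at a3
  change G.n0 (G.L0 u) ≤ 2 * G.n0 (G.L u) + _ at a3
  have a4 := n0_add_le hg (s2_lc h.s2 c)
  rw [← show G.L u = _ from funext hL] at a4
  have a5 := n0_lc_le h.s2 c
  rw [← hΘ'] at a5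
  have a6 := n0_cmul_le hu
  have p0 := n0_nonneg (G := G) u
  have p1 := n1_nonneg (G := G) u
  have p2 : 0 ≤ ∑ k, c k ^ 2 := Finset.sum_nonneg fun _ _ => sq_nonneg _
  have p3 : 0 ≤ ∑ k, G.ip (ψ k) u ^ 2 := Finset.sum_nonneg fun _ _ => sq_nonneg _
  have a7 : G.n0 (G.L0 u) + G.n1 u ≤ 4 * G.n0 g +
      (4 * Θ + 2 * G.B ^ 2 + 1) * (G.n0 u + G.n1 u + ∑ k, c k ^ 2) := by
    nlinarith [mul_nonneg hΘ p0, mul_nonneg hΘ p1, mul_nonneg (sq_nonneg G.B) p1,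
      mul_nonneg (sq_nonneg G.B) p2]
  have a8 := mul_le_mul_of_nonneg_left a1 (by positivity : 0 ≤ 4 * Θ + 2 * G.B ^ 2 + 1)
  have a9 : G.n0 (G.L0 u) + G.n1 u ≤
      (4 + (4 * Θ + 2 * G.B ^ 2 + 1) * C) * (G.n0 g + ∑ k, G.ip (ψ k) u ^ 2) := by nlinarith
  nlinarith [mul_le_mul_of_nonneg_left a9 hC'.le]

/-- **the Green operator as a linear map** -/
theorem Fam.exists_G (h : G.Fam ψ) :
    ∃ (Gu : (G.SS × (κ → ℝ)) →ₗ[ℝ] G.SS) (Gc : (G.SS × (κ → ℝ)) →ₗ[ℝ] (κ → ℝ)), ∀ z,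
      G.H1 (Gu z).1 ∧ (∀ p, G.L (Gu z).1 p = z.1.1 p + ∑ k, Gc z k * ψ k p) ∧
        ∀ k, G.ip (ψ k) (Gu z).1 = z.2 k := by
  choose u c hu hL hy using fun z : G.SS × (κ → ℝ) => h.green z.1.1 z.2 z.1.2
  have ad : ∀ z z', u (z + z') = (fun p => u z p + u z' p) ∧ c (z + z') = c z + c z' :=
    fun z z' => h.uniq' (hu _).toS2 ((hu z).toS2.add (hu z').toS2) (hL _) (fun p => by
      simp only [L_add (hu z).sm (hu z').sm, hL, Pi.add_apply, add_mul, Finset.sum_add_distrib,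
        Prod.fst_add, Submodule.coe_add]
      ring) fun k => by rw [ip_add (h.s2 k) (hu z).toS2 (hu z').toS2, hy, hy, hy]; rfl
  have sm : ∀ (r : ℝ) z, u (r • z) = (fun p => r * u z p) ∧ c (r • z) = r • c z :=
    fun r z => h.uniq' (hu _).toS2 ((hu z).toS2.const_mul r) (hL _) (fun p => by
      simp only [L_const_mul r (hu z).sm, hL, Pi.smul_apply, smul_eq_mul, mul_add, Finset.mul_sum,
        Prod.smul_fst, Submodule.coe_smul, mul_assoc])
      fun k => by rw [ip_const_mul, hy, hy]; rfl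
  exact ⟨⟨⟨fun z => ⟨u z, (hu z).toS2⟩, fun z z' => Subtype.ext (ad z z').1⟩,
    fun r z => Subtype.ext (sm r z).1⟩, ⟨⟨c, fun z z' => (ad z z').2⟩, fun r z => (sm r z).2⟩,
    fun z => ⟨hu z, hL z, hy z⟩⟩

end Gd

end Crest.Agent.N250.Lin

end
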