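import Crest.Agent.N250.Lin.Defs

/-!
# Row 250, linear Gaussian theory (helper22): cut-offs, Caccioppoli, Green, Ecker
-/

set_option autoImplicit false
set_option linter.unusedSectionVars false
open MeasureTheory Set Filter Topology Function
open scoped ContDiff
open Crest.Agent.N222 Crest.Agent.N222.Imm

noncomputable section

namespace Crest.Agent.N250.Lin

variable {d : ℕ} {ι : Type} [Fintype ι] [DecidableEq ι] {X : Type} [TopologicalSpace X]
  [T2Space X] [SecondCountableTopology X] [MeasurableSpace X] [BorelSpace X]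

namespace Gd

variable {G : Gd d ι X} {f g u v : X → ℝ}

/-- the cut-off functions -/
def cut (G : Gd d ι X) (n : ℕ) (p : X) : ℝ := N222.Phi (G.ρ p / (n + 1))

theorem cut_nonneg (n : ℕ) (p : X) : 0 ≤ G.cut n p := Phi_nonneg _
theorem cut_le (n : ℕ) (p : X) : G.cut n p ≤ 1 := Phi_le_one _

theorem cut_one {n : ℕ} {p : X} (h : G.ρ p ≤ (n + 1) / 2) : G.cut n p = 1 :=
  Phi_eq_one (by rw [div_le_iff₀ (by positivity)]; linarith)

theorem cut_zero {n : ℕ} {p : X} (h : (n : ℝ) + 1 ≤ G.ρ p) : G.cut n p = 0 :=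
  Phi_eq_zero (by rw [le_div_iff₀ (by positivity)]; linarith)

theorem tst_cut (G : Gd d ι X) (n : ℕ) : G.M.Tst (G.cut n) :=
  ⟨G.smρ.comp (g := fun s => N222.Phi (s / (n + 1))) (contDiff_Phi.comp (contDiff_id.div_const _)),
    HasCompactSupport.intro (G.prop (n + 1)) fun _ hp => cut_zero (le_of_lt (not_le.1 hp))⟩

theorem cut_ev (p : X) : ∀ᶠ n : ℕ in atTop, G.cut n p = 1 := by
  filter_upwards [tendsto_natCast_atTop_atTop.eventually_ge_atTop (2 * G.ρ p)] with n hn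
  exact cut_one (by linarith)

theorem exists_g1_cut (G : Gd d ι X) : ∃ K : ℝ, 0 < K ∧ ∀ (n : ℕ) p, G.g1 (G.cut n) p ≤ K / (n + 1) := by
  obtain ⟨C, hC, h⟩ := exists_deriv_Phi_le
  refine ⟨4 * C ^ 2, by positivity, fun n p => ?_⟩
  have hn : (0 : ℝ) < n + 1 := by positivity
  have e : ∀ a, G.D a (G.cut n) p = deriv N222.Phi (G.ρ p / (n + 1)) / (n + 1) * G.D a G.ρ p :=
    fun a => D_comp (G.smρ.diffAt p) (g := fun s => N222.Phi (s / (n + 1))) (by
      have h0 := (hasDerivAt_Phi (G.ρ p / (n + 1))).comp (G.ρ p)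
        ((hasDerivAt_id _).div_const ((n : ℝ) + 1))
      rw [mul_one_div] at h0
      exact h0) a
  have e2 : G.g1 (G.cut n) p = (deriv N222.Phi (G.ρ p / (n + 1)) / (n + 1)) ^ 2 * G.g1 G.ρ p := by
    simp only [g1_eq, e, mul_pow, Finset.mul_sum]
  rw [e2]
  by_cases hp : (n : ℝ) + 1 ≤ G.ρ p
  · rw [deriv_Phi_eq_zero (.inr (by rw [le_div_iff₀ hn]; linarith))]
    simp only [zero_div, ne_eq, OfNat.ofNat_ne_zero, not_false_eq_true, zero_pow, zero_mul]
    positivity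
  · have h1 : deriv N222.Phi (G.ρ p / (n + 1)) ^ 2 ≤ C ^ 2 := by
      rw [← sq_abs]; exact pow_le_pow_left₀ (abs_nonneg _) (h _) 2
    have h2 : G.g1 G.ρ p ≤ 4 * (n + 1) := (G.gamρ p).trans (by linarith)
    calc _ ≤ C ^ 2 / (n + 1) ^ 2 * (4 * (n + 1)) := by
          rw [div_pow]
          exact mul_le_mul (div_le_div_of_nonneg_right h1 (by positivity)) h2 (g1_nonneg _ _)
            (by positivity)
      _ = _ := by field_simp

theorem lim_cut (hf : Integrable f G.nu) (m : ℕ) :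
    Tendsto (fun n => ∫ p, G.cut n p ^ m * f p ∂G.nu) atTop (𝓝 (∫ p, f p ∂G.nu)) := by
  refine tendsto_integral_of_dominated_convergence (fun p => ‖f p‖)
    (fun n => (((G.tst_cut n).sm.continuous.pow m).aestronglyMeasurable).mul hf.1) hf.norm
    (fun n => .of_forall fun p => ?_) (.of_forall fun p => ?_)
  · rw [norm_mul]
    refine mul_le_of_le_one_left (norm_nonneg _) ?_
    rw [Real.norm_of_nonneg (pow_nonneg (cut_nonneg n p) m)]
    exact pow_le_one₀ (cut_nonneg n p) (cut_le n p)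
  · refine tendsto_const_nhds.congr' ?_
    filter_upwards [cut_ev (G := G) p] with n hn
    rw [hn, one_pow, one_mul]

/-- Fatou along the cut-offs -/
theorem intg_of_cut (hf : Continuous f) (h0 : ∀ p, 0 ≤ f p) {C : ℝ}
    (h : ∀ n, ∫ p, G.cut n p ^ 2 * f p ∂G.nu ≤ C) : Integrable f G.nu ∧ ∫ p, f p ∂G.nu ≤ C := by
  have hi : Integrable f G.nu := by
    have hc : AECover G.nu atTop fun n : ℕ => {p | G.ρ p ≤ ((n : ℝ) + 1) / 2} :=
      ⟨.of_forall fun p => by
        filter_upwards [tendsto_natCast_atTop_atTop.eventually_ge_atTop (2 * G.ρ p)] with n hn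
        show G.ρ p ≤ _
        linarith, fun n => (G.prop _).isClosed.measurableSet⟩
    refine hc.integrable_of_integral_bounded_of_nonneg_ae C
      (fun n => hf.continuousOn.integrableOn_compact (G.prop _)) (.of_forall h0)
      (.of_forall fun n => le_trans ?_ (h n))
    have i1 : Integrable (fun p => G.cut n p ^ 2 * f p) G.nu :=
      intg ((G.tst_cut n).sm.continuous.pow 2 |>.mul hf) (tst_sq (G.tst_cut n)).cs.mul_right
    rw [← setIntegral_congr_fun (f := fun p => G.cut n p ^ 2 * f p)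
      (G.prop _).isClosed.measurableSet fun p hp => by simp only [cut_one hp, one_pow, one_mul]]
    exact setIntegral_le_integral i1 (.of_forall fun p => mul_nonneg (sq_nonneg _) (h0 p))
  exact ⟨hi, le_of_tendsto' (lim_cut hi 2) h⟩

theorem S2.sq (hu : G.S2 u) : Integrable (fun p => u p ^ 2) G.nu := hu.l2.integrable_sq

theorem S2.mul (hu : G.S2 u) (hv : G.S2 v) : Integrable (fun p => u p * v p) G.nu :=
  hu.l2.integrable_mul hv.l2

theorem s2_of_sq (hu : G.M.Sm u) (h : Integrable (fun p => u p ^ 2) G.nu) : G.S2 u :=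
  ⟨hu, (memLp_two_iff_integrable_sq hu.continuous.aestronglyMeasurable).2 h⟩

theorem S2.add (hu : G.S2 u) (hv : G.S2 v) : G.S2 fun p => u p + v p :=
  ⟨hu.sm.add hv.sm, hu.l2.add hv.l2⟩

theorem S2.sub (hu : G.S2 u) (hv : G.S2 v) : G.S2 fun p => u p - v p :=
  ⟨hu.sm.sub hv.sm, hu.l2.sub hv.l2⟩

theorem S2.const_mul (hu : G.S2 u) (c : ℝ) : G.S2 fun p => c * u p :=
  ⟨(sm_const c).mul hu.sm, hu.l2.const_mul c⟩

theorem s2_sum {κ : Type*} (s : Finset κ) {w : κ → X → ℝ} (hw : ∀ k, G.S2 (w k)) :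
    G.S2 fun p => ∑ k ∈ s, w k p :=
  ⟨sm_sum _ fun k _ => (hw k).sm, memLp_finsetSum _ fun k _ => (hw k).l2⟩

theorem S2.bmul (hu : G.S2 u) (hf : G.M.Sm f) {C : ℝ} (h : ∀ p, |f p| ≤ C) :
    G.S2 fun p => f p * u p :=
  ⟨hf.mul hu.sm, hu.l2.of_le_mul (c := C) (hf.mul hu.sm).continuous.aestronglyMeasurable
    (.of_forall fun p => by
      rw [norm_mul]
      exact mul_le_mul_of_nonneg_right (h p) (norm_nonneg _))⟩

theorem S2.cmul (hu : G.S2 u) : G.S2 fun p => G.c p * u p := hu.bmul G.smc G.cle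

theorem D_sq_le (u : X → ℝ) (a : ι) (p : X) : G.D a u p ^ 2 ≤ G.g1 u p := by
  rw [g1_eq]
  exact Finset.single_le_sum (f := fun a => G.D a u p ^ 2) (fun _ _ => sq_nonneg _)
    (Finset.mem_univ a)

theorem H1.D (hu : G.H1 u) (a : ι) : G.S2 (G.D a u) :=
  s2_of_sq (hu.sm.D a) (hu.d1.mono' ((hu.sm.D a).continuous.pow 2).aestronglyMeasurable
    (.of_forall fun p => by
      rw [Real.norm_of_nonneg (sq_nonneg _)]; exact D_sq_le u a p))

theorem h1_of_D (hu : G.S2 u) (h : ∀ a, G.S2 (G.D a u)) : G.H1 u :=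
  ⟨hu, by
    rw [show G.g1 u = fun p => ∑ a, G.D a u p ^ 2 from funext (g1_eq u)]
    exact integrable_finsetSum _ fun a _ => (h a).sq⟩

theorem H1.gam (hu : G.H1 u) (hv : G.H1 v) : Integrable (G.M.pre.gam u v) G.nu := by
  rw [show G.M.pre.gam u v = fun p => ∑ a, G.D a u p * G.D a v p from funext (gam_apply u v)]
  exact integrable_finsetSum _ fun a _ => (hu.D a).mul (hv.D a)

theorem D_add' (hu : G.M.Sm u) (hv : G.M.Sm v) (a : ι) :
    G.D a (fun p => u p + v p) = fun p => G.D a u p + G.D a v p :=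
  funext fun p => D_add (hu.diffAt p) (hv.diffAt p) a

theorem D_cmul' (c : ℝ) (hu : G.M.Sm u) (a : ι) :
    G.D a (fun p => c * u p) = fun p => c * G.D a u p :=
  funext fun p => D_const_mul c (hu.diffAt p) a

theorem D_mul' (hu : G.M.Sm u) (hv : G.M.Sm v) (a : ι) :
    G.D a (fun p => u p * v p) = fun p => u p * G.D a v p + G.D a u p * v p :=
  funext fun p => D_mul (hu.diffAt p) (hv.diffAt p) a

theorem H1.add (hu : G.H1 u) (hv : G.H1 v) : G.H1 fun p => u p + v p :=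
  h1_of_D (hu.toS2.add hv.toS2) fun a => D_add' hu.sm hv.sm a ▸ (hu.D a).add (hv.D a)

theorem H1.const_mul (hu : G.H1 u) (c : ℝ) : G.H1 fun p => c * u p :=
  h1_of_D (hu.toS2.const_mul c) fun a => D_cmul' c hu.sm a ▸ (hu.D a).const_mul c

theorem H1.sub (hu : G.H1 u) (hv : G.H1 v) : G.H1 fun p => u p - v p := by
  simpa only [neg_mul, one_mul, ← sub_eq_add_neg] using hu.add (hv.const_mul (-1))

theorem h1_sum {κ : Type*} (s : Finset κ) {w : κ → X → ℝ} (hw : ∀ k, G.H1 (w k)) :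
    G.H1 fun p => ∑ k ∈ s, w k p := by
  classical
  induction s using Finset.induction_on with
  | empty => simpa using tst_h1 (G := G) (f := fun _ => 0) ⟨sm_const _, HasCompactSupport.zero⟩
  | insert k s hk ih =>
    simp only [Finset.sum_insert hk]
    exact (hw k).add ih

theorem abs_mul_gam_le (v : ℝ) (f g : X → ℝ) (p : X) {ε : ℝ} (hε : 0 ≤ ε) (h : G.g1 f p ≤ ε ^ 2) :
    |v * G.M.pre.gam f g p| ≤ ε * (v ^ 2 + G.g1 g p) := by
  have h1 := gam_sq_le (G := G) f g p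
  have h2 := g1_nonneg (G := G) g p
  refine abs_le_of_sq_le_sq ?_ (by positivity)
  have h3 : G.M.pre.gam f g p ^ 2 ≤ ε ^ 2 * G.g1 g p := h1.trans (mul_le_mul_of_nonneg_right h h2)
  rw [mul_pow, mul_pow]
  nlinarith [mul_le_mul_of_nonneg_left h3 (sq_nonneg v), sq_nonneg (v ^ 2 - G.g1 g p),
    mul_nonneg (sq_nonneg ε) (sq_nonneg (v ^ 2 - G.g1 g p)),
    mul_nonneg (sq_nonneg ε) (mul_nonneg (sq_nonneg v) h2)]

theorem tendsto_sqrtK (K : ℝ) : Tendsto (fun n : ℕ => √(K / (n + 1))) atTop (𝓝 0) := by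
  have h : Tendsto (fun n : ℕ => K / ((n : ℝ) + 1)) atTop (𝓝 0) :=
    tendsto_const_nhds.div_atTop (tendsto_natCast_atTop_atTop.atTop_add tendsto_const_nhds)
  simpa using h.sqrt

theorem lim_gam_cut (hv : G.S2 v) (hu : G.H1 u) :
    Tendsto (fun n => ∫ p, v p * G.M.pre.gam (G.cut n) u p ∂G.nu) atTop (𝓝 0) := by
  obtain ⟨K, hK, h⟩ := G.exists_g1_cut
  have h1 := (tendsto_sqrtK K).mul_const (∫ p, (v p ^ 2 + G.g1 u p) ∂G.nu)
  rw [zero_mul] at h1
  refine squeeze_zero_norm (fun n => ?_) h1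
  rw [← integral_const_mul]
  refine norm_integral_le_of_norm_le ((hv.sq.add hu.d1).const_mul _) (.of_forall fun p => ?_)
  exact abs_mul_gam_le _ _ _ _ (Real.sqrt_nonneg _) (by
    rw [Real.sq_sqrt (by positivity)]; exact h n p)

/-- Caccioppoli with a cut-off -/
theorem cacc {η : X → ℝ} (hη : G.M.Tst η) (hu : G.M.Sm u) :
    ∫ p, η p ^ 2 * G.g1 u p ∂G.nu ≤
      ∫ p, (-2 * (η p ^ 2 * (u p * G.L0 u p)) + 4 * (G.g1 η p * u p ^ 2)) ∂G.nu := by
  have h := int_L0 (tst_mul (tst_sq hη) hu) hu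
  have i1 := tst_intg (tst_mul (tst_sq hη) (smg1 hu))
  have i2 := tst_intg (tst_mul (tst_sq hη) (hu.mul (smL0 hu)))
  have i3 := tst_intg (tst_mul (tst_g1 hη) (hu.pow 2))
  have i4 := tst_intg (tst_gam (tst_mul (tst_sq hη) hu) hu)
  have h2 : ∫ p, η p ^ 2 * G.g1 u p ∂G.nu ≤ ∫ p, (2 * G.M.pre.gam (fun p => η p ^ 2 * u p) u p +
      4 * (G.g1 η p * u p ^ 2)) ∂G.nu := by
    refine integral_mono i1 ((i4.const_mul 2).add (i3.const_mul 4)) fun p => ?_
    have e1 : G.M.pre.gam (fun p => η p ^ 2) u p = 2 * η p * G.M.pre.gam η u p := by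
      simp only [sq]
      rw [gam_mul hη.sm hη.sm]; ring
    simp only
    rw [gam_mul (hη.sm.pow 2) hu, e1]
    have h3 := gam_sq_le (G := G) η u p
    have h4 : |4 * (u p * η p * G.M.pre.gam η u p)| ≤
        η p ^ 2 * G.g1 u p + 4 * (G.g1 η p * u p ^ 2) := by
      have a1 := mul_nonneg (sq_nonneg (η p)) (g1_nonneg (G := G) u p)
      have a2 := mul_nonneg (g1_nonneg (G := G) η p) (sq_nonneg (u p))
      refine abs_le_of_sq_le_sq ?_ (by positivity)
      nlinarith [mul_le_mul_of_nonneg_left h3 (mul_nonneg (sq_nonneg (u p)) (sq_nonneg (η p))),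
        sq_nonneg (η p ^ 2 * G.g1 u p - 4 * (G.g1 η p * u p ^ 2))]
    have := (abs_le.1 h4).1
    change η p ^ 2 * G.g1 u p ≤ 2 * (η p ^ 2 * G.g1 u p + _) + _
    nlinarith
  rw [integral_add (i4.const_mul 2) (i3.const_mul 4), integral_const_mul] at h2
  rw [integral_add (i2.const_mul _) (i3.const_mul 4), integral_const_mul]
  simp only [mul_assoc] at h
  linarith

theorem S2.h1' (hu : G.S2 u) (hL : G.S2 (G.L0 u)) : G.H1 u := by
  obtain ⟨K, hK, h⟩ := G.exists_g1_cut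
  refine ⟨hu, (intg_of_cut (smg1 hu.sm).continuous (g1_nonneg u)
    (C := ∫ p, (2 * |u p * G.L0 u p| + 4 * (K * u p ^ 2)) ∂G.nu) fun n => ?_).1⟩
  refine (cacc (G.tst_cut n) hu.sm).trans (integral_mono
    (((tst_intg (tst_mul (tst_sq (G.tst_cut n)) (hu.sm.mul hL.sm))).const_mul _).add
      ((tst_intg (tst_mul (tst_g1 (G.tst_cut n)) (hu.sm.pow 2))).const_mul _))
    (((hu.mul hL).abs.const_mul 2).add ((hu.sq.const_mul K).const_mul 4)) fun p => ?_)
  have h1 : G.g1 (G.cut n) p ≤ K := (h n p).trans (div_le_self hK.le (by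
    have : (0 : ℝ) ≤ n := n.cast_nonneg
    linarith))
  have h2 : G.cut n p ^ 2 ≤ 1 := pow_le_one₀ (cut_nonneg n p) (cut_le n p)
  have h3 := neg_abs_le (u p * G.L0 u p)
  have h4 := abs_nonneg (u p * G.L0 u p)
  simp only
  nlinarith [mul_le_mul_of_nonneg_right h1 (sq_nonneg (u p)), sq_nonneg (G.cut n p),
    mul_le_mul_of_nonneg_left h3 (sq_nonneg (G.cut n p))]

theorem s2_L0 (hu : G.S2 u) (hL : G.S2 (G.L u)) : G.S2 (G.L0 u) := by
  simpa only [L, add_sub_cancel_right] using hL.sub hu.cmul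

theorem s2_L (hu : G.S2 u) (hL : G.S2 (G.L0 u)) : G.S2 (G.L u) := hL.add hu.cmul

theorem S2.h1 (hu : G.S2 u) (hL : G.S2 (G.L u)) : G.H1 u := hu.h1' (s2_L0 hu hL)

/-- Green's formula in `H¹` -/
theorem int_L0' (hv : G.H1 v) (hu : G.S2 u) (hL : G.S2 (G.L0 u)) :
    ∫ p, v p * G.L0 u p ∂G.nu = -∫ p, G.M.pre.gam v u p ∂G.nu := by
  have hu1 := hu.h1' hL
  have h1 := lim_cut (hv.toS2.mul hL) 1
  have h2 := ((lim_cut (hv.gam hu1) 1).add (lim_gam_cut hv.toS2 hu1)).neg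
  rw [add_zero] at h2
  refine tendsto_nhds_unique h1 (h2.congr fun n => ?_)
  have h3 := int_L0 (tst_mul (G.tst_cut n) hv.sm) hu.sm
  simp only [gam_mul (G.tst_cut n).sm hv.sm, mul_assoc] at h3
  rw [integral_add (tst_intg (tst_mul (G.tst_cut n) (hv.sm.gam hu.sm)))
    (tst_intg (tst_mul' hv.sm (tst_gam (G.tst_cut n) hu.sm)))] at h3
  simp only [pow_one]
  exact h3.symm

theorem Q_eq (hu : G.H1 u) (hv : G.H1 v) :
    G.Q u v = ∫ p, G.M.pre.gam u v p ∂G.nu - ∫ p, G.c p * u p * v p ∂G.nu := by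
  rw [Q, ← integral_sub (hu.gam hv) (hu.toS2.cmul.mul hv.toS2)]
  simp only [mul_assoc]

theorem Q_comm (u v : X → ℝ) : G.Q u v = G.Q v u := by
  simp only [Q, gam_comm u v, mul_comm (u _)]

theorem ip_L (hu : G.S2 u) (hL : G.S2 (G.L u)) (hv : G.H1 v) : G.ip (G.L u) v = -G.Q u v := by
  have h0 := s2_L0 hu hL
  have h := int_L0' hv hu h0
  rw [Q_eq (hu.h1 hL) hv]
  simp only [ip, L, add_mul]
  rw [integral_add (h0.mul hv.toS2) (hu.cmul.mul hv.toS2)]
  simp only [mul_comm (G.L0 u _), h, gam_comm v u]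
  ring

/-- for test functions no integrability of `u` is needed -/
theorem ip_L_tst (hu : G.M.Sm u) (hv : G.M.Tst v) : G.ip (G.L u) v = -G.Q u v := by
  have h := int_L0 hv hu
  simp only [ip, Q, L, add_mul, gam_comm u v]
  rw [integral_add (tst_intg (tst_mul' (smL0 hu) hv)) (tst_intg (tst_mul' (G.smc.mul hu) hv)),
    integral_sub (tst_intg (tst_gam hv hu)) (tst_intg (tst_mul' G.smc (tst_mul' hu hv)))]
  simp only [mul_comm (G.L0 u _), h, mul_assoc]
  ring

theorem ecker_tst (hv : G.M.Tst v) :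
    ∫ p, G.ρ p * v p ^ 2 ∂G.nu ≤ 2 * G.B * G.n0 v + 16 * G.n1 v := by
  have h := int_L0 (tst_sq hv) G.smρ
  have i1 := tst_intg (tst_mul' G.smρ (tst_sq hv))
  have i2 := tst_intg (tst_sq hv)
  have i3 := tst_intg (tst_g1 hv)
  have i4 := tst_intg (tst_mul (tst_sq hv) (smL0 G.smρ))
  have i5 := tst_intg (tst_gam (tst_sq hv) G.smρ)
  have h2 : ∫ p, G.ρ p * v p ^ 2 ∂G.nu ≤ ∫ p, (2 * G.B * v p ^ 2 + 16 * G.g1 v p -
      2 * (v p ^ 2 * G.L0 G.ρ p + G.M.pre.gam (fun p => v p ^ 2) G.ρ p)) ∂G.nu := by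
    refine integral_mono i1 (((i2.const_mul _).add (i3.const_mul _)).sub
      ((i4.add i5).const_mul 2)) fun p => ?_
    have e1 : G.M.pre.gam (fun p => v p ^ 2) G.ρ p = 2 * v p * G.M.pre.gam v G.ρ p := by
      simp only [sq]
      rw [gam_mul hv.sm hv.sm]; ring
    have h3 : G.M.pre.gam v G.ρ p ^ 2 ≤ G.g1 v p * (4 * G.ρ p) := (gam_sq_le v G.ρ p).trans
      (mul_le_mul_of_nonneg_left (G.gamρ p) (g1_nonneg _ _))
    have a1 := mul_nonneg (G.ρ0 p) (sq_nonneg (v p))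
    have a2 := g1_nonneg (G := G) v p
    have h4 : |4 * (v p * G.M.pre.gam v G.ρ p)| ≤ G.ρ p * v p ^ 2 + 16 * G.g1 v p := by
      refine abs_le_of_sq_le_sq ?_ (by positivity)
      nlinarith [mul_le_mul_of_nonneg_left h3 (sq_nonneg (v p)),
        sq_nonneg (G.ρ p * v p ^ 2 - 16 * G.g1 v p)]
    have h5 := (abs_le.1 h4).2
    have h6 := mul_le_mul_of_nonneg_left (G.lapρ p) (sq_nonneg (v p))
    simp only [e1]
    nlinarith
  have j1 : Integrable (fun p => 2 * G.B * v p ^ 2 + 16 * G.g1 v p) G.nu :=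
    (i2.const_mul _).add (i3.const_mul _)
  have j2 : Integrable (fun p => 2 * (v p ^ 2 * G.L0 G.ρ p +
      G.M.pre.gam (fun p => v p ^ 2) G.ρ p)) G.nu := (i4.add i5).const_mul 2
  rw [integral_sub j1 j2,
    integral_add (i2.const_mul _) (i3.const_mul _), integral_const_mul, integral_const_mul,
    integral_const_mul, integral_add i4 i5, h] at h2
  simpa [n0, n1] using h2

theorem g1_mul_le (hf : G.M.Sm f) (hg : G.M.Sm g) (p : X) :
    G.g1 (fun q => f q * g q) p ≤ 2 * (f p ^ 2 * G.g1 g p) + 2 * (G.g1 f p * g p ^ 2) := by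
  simp only [g1_eq, D_mul' hf hg, Finset.mul_sum, Finset.sum_mul, ← Finset.sum_add_distrib]
  exact Finset.sum_le_sum fun a _ => by
    nlinarith [sq_nonneg (f p * G.D a g p - G.D a f p * g p)]

/-- cutting off does not increase the norms much -/
theorem exists_cut_le (G : Gd d ι X) : ∃ K : ℝ, 0 < K ∧ ∀ (n : ℕ) u, G.H1 u →
    G.n0 (fun p => G.cut n p * u p) ≤ G.n0 u ∧
    G.n1 (fun p => G.cut n p * u p) ≤ 2 * G.n1 u + K * G.n0 u := by
  obtain ⟨K, hK, h⟩ := G.exists_g1_cut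
  refine ⟨2 * K, by positivity, fun n u hu => ?_⟩
  have t := tst_mul (G.tst_cut n) hu.sm
  have h2 : ∀ p, G.cut n p ^ 2 ≤ 1 := fun p => pow_le_one₀ (cut_nonneg n p) (cut_le n p)
  refine ⟨integral_mono (tst_intg (tst_sq t)) hu.toS2.sq fun p => ?_, ?_⟩
  · simp only [mul_pow]
    exact mul_le_of_le_one_left (sq_nonneg _) (h2 p)
  · rw [n1, n1, n0, ← integral_const_mul, ← integral_const_mul,
      ← integral_add (hu.d1.const_mul _) (hu.toS2.sq.const_mul _)]
    refine integral_mono (tst_intg (tst_g1 t)) ((hu.d1.const_mul _).add (hu.toS2.sq.const_mul _))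
      fun p => (g1_mul_le (G.tst_cut n).sm hu.sm p).trans ?_
    have h1 : G.g1 (G.cut n) p ≤ K := (h n p).trans (div_le_self hK.le (by
      have : (0 : ℝ) ≤ n := n.cast_nonneg
      linarith))
    nlinarith [mul_le_mul_of_nonneg_right h1 (sq_nonneg (u p)),
      mul_le_mul_of_nonneg_right (h2 p) (g1_nonneg (G := G) u p)]

/-- **Ecker's inequality** -/
theorem ecker (G : Gd d ι X) : ∃ C : ℝ, 0 < C ∧ ∀ u, G.H1 u →
    Integrable (fun p => G.ρ p * u p ^ 2) G.nu ∧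
      ∫ p, G.ρ p * u p ^ 2 ∂G.nu ≤ C * (G.n0 u + G.n1 u) := by
  obtain ⟨K, hK, h⟩ := G.exists_cut_le
  have hB := G.one
  refine ⟨2 * G.B + 16 * K + 32, by positivity, fun u hu => intg_of_cut
    (G.smρ.mul (hu.sm.pow 2)).continuous (fun p => mul_nonneg (G.ρ0 p) (sq_nonneg _)) fun n => ?_⟩
  have h1 := ecker_tst (tst_mul (G.tst_cut n) hu.sm)
  obtain ⟨h2, h3⟩ := h n u hu
  have h4 := n0_nonneg (G := G) u
  have h5 := n1_nonneg (G := G) u
  have e : ∀ p, G.cut n p ^ 2 * (G.ρ p * u p ^ 2) = G.ρ p * (G.cut n p * u p) ^ 2 := fun p => by ring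
  simp only [e]
  nlinarith [mul_le_mul_of_nonneg_left h2 (by linarith : 0 ≤ 2 * G.B)]

end Gd

end Crest.Agent.N250.Lin

end
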