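import Crest.Agent.N250.Lin.Est
import Crest.Agent.N222.F.Res
import Crest.Agent.R330.Rellich_893

/-!
# Row 250, linear Gaussian theory (helper22): Rellich compactness, existence of coercive families
-/

set_option autoImplicit false
set_option linter.unusedSectionVars false
open MeasureTheory Set Filter Topology Function
open scoped ContDiff
open Crest.Agent.N222 Crest.Agent.N222.Imm

noncomputable section

namespace Crest.Agent.N250.Lin

theorem rel_real {d : ℕ} {φ : ℕ → E (Fin d) → ℝ} {K : Set (E (Fin d))} (hK : IsCompact K)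
    (hs : ∀ n, ContDiff ℝ ∞ (φ n)) (hc : ∀ n, tsupport (φ n) ⊆ K) {C : ℝ}
    (h0 : ∀ n, ∫ x, φ n x ^ 2 ≤ C)
    (h1 : ∀ n, ∫ x, ∑ i, fderiv ℝ (φ n) x (EuclideanSpace.single i 1) ^ 2 ≤ C) {δ : ℝ}
    (hδ : 0 < δ) : ∃ A ∈ hyperfilter ℕ, ∀ n ∈ A, ∀ m ∈ A, ∫ x, (φ n x - φ m x) ^ 2 ≤ δ := by
  have cs : ∀ n, HasCompactSupport (φ n) := fun n =>
    hK.of_isClosed_subset (isClosed_tsupport _) (hc n)
  have sm : ∀ n, ContDiff ℝ ∞ fun x => (φ n x : ℂ) := fun n =>
    Complex.ofRealCLM.contDiff.comp (hs n)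
  have cs' : ∀ n, HasCompactSupport fun x => (φ n x : ℂ) := fun n =>
    (cs n).comp_left (g := fun r : ℝ => (r : ℂ)) Complex.ofReal_zero
  obtain ⟨Ψ, hΨ, hl⟩ := R330.Rel893.rellich_hyper (φ := fun n x => (φ n x : ℂ)) sm cs' (C := C)
    (fun n => by simpa using h0 n) fun n => by
      refine le_of_eq_of_le (integral_congr_ae (.of_forall fun x => ?_)) (h1 n)
      have := (Complex.ofRealCLM.hasFDerivAt.comp x
        ((hs n).differentiable (by simp) x).hasFDerivAt).fderiv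
      refine Finset.sum_congr rfl fun i _ => ?_
      rw [show (fun x => (φ n x : ℂ)) = Complex.ofRealCLM ∘ φ n from rfl, this]
      simp
  obtain ⟨R, hR⟩ := hK.isBounded.exists_norm_le
  have hi : ∀ n, Integrable fun x => ‖(φ n x : ℂ) - Ψ x‖ ^ 2 := fun n =>
    (((sm n).continuous.memLp_of_hasCompactSupport (cs' n)).sub hΨ).norm.integrable_sq
  refine ⟨_, (hl R).eventually (gt_mem_nhds (by positivity : 0 < δ / 4)), fun n hn m hm => ?_⟩
  have hn' : ∫ x in {x | ‖x‖ ≤ R}, ‖(φ n x : ℂ) - Ψ x‖ ^ 2 < δ / 4 := hn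
  have hm' : ∫ x in {x | ‖x‖ ≤ R}, ‖(φ m x : ℂ) - Ψ x‖ ^ 2 < δ / 4 := hm
  rw [← setIntegral_eq_integral_of_forall_compl_eq_zero (s := {x | ‖x‖ ≤ R}) fun x hx => by
    rw [image_eq_zero_of_notMem_tsupport fun h => hx (hR x (hc n h)),
      image_eq_zero_of_notMem_tsupport fun h => hx (hR x (hc m h))]; simp]
  have h2 : ∫ x in {x | ‖x‖ ≤ R}, (φ n x - φ m x) ^ 2 ≤
      ∫ x in {x | ‖x‖ ≤ R}, (2 * ‖(φ n x : ℂ) - Ψ x‖ ^ 2 + 2 * ‖(φ m x : ℂ) - Ψ x‖ ^ 2) := by
    refine integral_mono_of_nonneg (.of_forall fun _ => sq_nonneg _)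
      (((hi n).const_mul 2).add ((hi m).const_mul 2)).integrableOn (.of_forall fun x => ?_)
    have := R335.sq_norm_sub_le ((φ n x : ℂ) - Ψ x) ((φ m x : ℂ) - Ψ x)
    rwa [sub_sub_sub_cancel_right, ← Complex.ofReal_sub, Complex.norm_real, Real.norm_eq_abs,
      sq_abs] at this
  rw [integral_add ((hi n).const_mul 2).integrableOn ((hi m).const_mul 2).integrableOn,
    integral_const_mul, integral_const_mul] at h2
  linarith

variable {d : ℕ} {ι : Type} [Fintype ι] [DecidableEq ι] {X : Type} [TopologicalSpace X]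
  [T2Space X] [SecondCountableTopology X] [MeasurableSpace X] [BorelSpace X]

namespace Gd

variable {G : Gd d ι X} {f g u v χ : X → ℝ} {e : OpenPartialHomeomorph X (E (Fin d))}

/-- the density of `nu` in a chart -/
def om (G : Gd d ι X) (e : OpenPartialHomeomorph X (E (Fin d))) (z : E (Fin d)) : ℝ :=
  jac (fderiv ℝ (G.M.x ∘ e.symm) z) * Real.exp (G.F (e.symm z))

theorem om_nonneg (z : E (Fin d)) : 0 ≤ G.om e z :=
  mul_nonneg (Real.sqrt_nonneg _) (Real.exp_pos _).le

theorem om_pos (he : IsChart G.M.x e) {z : E (Fin d)} (hz : z ∈ e.target) : 0 < G.om e z :=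
  mul_pos (jac_pos (he.inj z hz)) (Real.exp_pos _)

theorem cont_om (he : IsChart G.M.x e) : ContinuousOn (G.om e) e.target :=
  (continuousOn_jac he).mul (G.cF.comp_continuousOn e.continuousOn_symm)

theorem chart_int (he : IsChart G.M.x e) (hf : Integrable f G.nu) (hs : support f ⊆ e.source) :
    Integrable (fun z => G.om e z * push e f z) ∧
      ∫ p, f p ∂G.nu = ∫ z, G.om e z * push e f z := by
  have e1 : (fun z => G.om e z * push e f z) = e.target.indicator fun z =>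
      jac (fderiv ℝ (G.M.x ∘ e.symm) z) • (f (e.symm z) * Real.exp (G.F (e.symm z))) := by
    funext z
    by_cases hz : z ∈ e.target
    · simp only [push, indicator_of_mem hz, om, smul_eq_mul]; ring
    · simp only [push, indicator_of_notMem hz, mul_zero]
  rw [e1, integral_indicator e.open_target.measurableSet, int_nu,
    integrable_indicator_iff e.open_target.measurableSet]
  exact ⟨(integrableOn_chart he _).1 ((G.intg_nu f).1 hf).integrableOn,
    integral_chart he ((support_mul_subset_left _ _).trans hs)⟩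

theorem push_nonneg (h : ∀ p, 0 ≤ f p) (z : E (Fin d)) : 0 ≤ push e f z :=
  indicator_nonneg (fun _ _ => h _) z

theorem mul_le (hχ : G.M.Tst χ) : ∃ C : ℝ, 0 < C ∧ ∀ u, G.H1 u →
    G.n0 (fun p => χ p * u p) + G.n1 (fun p => χ p * u p) ≤ C * (G.n0 u + G.n1 u) := by
  obtain ⟨C, hC⟩ := ((tst_sq hχ).sm.continuous.add (smg1 hχ.sm).continuous).bounded_above_of_compact_support
    ((tst_sq hχ).cs.add (tst_g1 hχ).cs)
  refine ⟨2 * |C| + 1, by positivity, fun u hu => ?_⟩
  have t := tst_mul hχ hu.sm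
  rw [n0, n1, n0, n1, ← integral_add (tst_intg (tst_sq t)) (tst_intg (tst_g1 t)),
    ← integral_add hu.toS2.sq hu.d1, ← integral_const_mul]
  refine integral_mono ((tst_intg (tst_sq t)).add (tst_intg (tst_g1 t)))
    ((hu.toS2.sq.add hu.d1).const_mul _) fun p => ?_
  have h1 := g1_mul_le hχ.sm hu.sm p
  have h2 : χ p ^ 2 + G.g1 χ p ≤ |C| := (le_abs_self _).trans ((hC p).trans (le_abs_self _))
  have h3 := g1_nonneg (G := G) u p
  have h4 := g1_nonneg (G := G) χ p
  simp only [mul_pow]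
  nlinarith [mul_le_mul_of_nonneg_right h2 (add_nonneg (sq_nonneg (u p)) h3),
    mul_nonneg (sq_nonneg (χ p)) (sq_nonneg (u p)), mul_nonneg h4 h3, sq_nonneg (u p)]

theorem push_ev (f : X → ℝ) {z : E (Fin d)} (hz : z ∈ e.target) : push e f =ᶠ[𝓝 z] f ∘ e.symm :=
  eventually_of_mem (e.open_target.mem_nhds hz) fun _ hy => indicator_of_mem hy _

theorem push_of_mem (f : X → ℝ) {z : E (Fin d)} (hz : z ∈ e.target) : push e f z = f (e.symm z) :=
  indicator_of_mem hz _

theorem push_zero {T : Set X} (hT : support f ⊆ T) {z : E (Fin d)} (hz : z ∉ e '' T) :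
    push e f z = 0 := by
  by_cases hz' : z ∈ e.target
  · rw [push_of_mem f hz']
    by_contra h
    exact hz ⟨_, hT h, e.right_inv hz'⟩
  · exact indicator_of_notMem hz' _

theorem push_sm (he : IsChart G.M.x e) (hf : G.M.Tst f) (hs : tsupport f ⊆ e.source) :
    ContDiff ℝ ∞ (push e f) :=
  contDiff_iff_contDiffAt.2 fun z => by
    by_cases hz : z ∈ e.target
    · exact ((hf.sm.chart he).contDiffAt (e.open_target.mem_nhds hz)).congr_of_eventuallyEq
        (push_ev _ hz)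
    · refine (contDiffAt_const (c := 0)).congr_of_eventuallyEq
        (notMem_tsupport_iff_eventuallyEq.1 fun h => hz ?_)
      rw [tsupport_push hf.cs hs] at h
      obtain ⟨p, hp, rfl⟩ := h
      exact e.map_source (hs hp)

theorem img_sub {T : Set X} (hs : T ⊆ e.source) : e '' T ⊆ e.target := by
  rintro _ ⟨p, hp, rfl⟩
  exact e.map_source (hs hp)

theorem int_le_chart (he : IsChart G.M.x e) (hf : Integrable f G.nu)
    (hs : support f ⊆ e.source) {h : E (Fin d) → ℝ} (h1 : ∀ z, 0 ≤ h z) {C : ℝ}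
    (h2 : ∀ z, h z ≤ C * (G.om e z * push e f z)) : ∫ z, h z ≤ C * ∫ p, f p ∂G.nu := by
  obtain ⟨i1, e1⟩ := chart_int he hf hs
  rw [e1, ← integral_const_mul]
  exact integral_mono_of_nonneg (.of_forall h1) (i1.const_mul _) (.of_forall h2)

theorem fderiv_push_le (he : IsChart G.M.x e) (f : X → ℝ) {z : E (Fin d)} (hz : z ∈ e.target)
    (w : E (Fin d)) : fderiv ℝ (push e f) z w ^ 2 ≤
      ‖fderiv ℝ (G.M.x ∘ e.symm) z w‖ ^ 2 * G.g1 f (e.symm z) := by
  have e2 := fderiv_chart f he (e.map_target hz)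
  rw [e.right_inv hz] at e2
  rw [(push_ev f hz).fderiv_eq, e2, ContinuousLinearMap.comp_apply, td_eq_inner, g1, gam_self_eq,
    ← mul_pow, mul_comm, ← sq_abs]
  exact pow_le_pow_left₀ (abs_nonneg _) (abs_real_inner_le_norm _ _) 2

theorem chart_bounds (he : IsChart G.M.x e) {T : Set X} (hT : IsCompact T) (hs : T ⊆ e.source) :
    ∃ C : ℝ, 0 < C ∧ ∀ f, G.M.Tst f → tsupport f ⊆ T → ∫ z, push e f z ^ 2 ≤ C * G.n0 f ∧
      ∫ z, ∑ i, fderiv ℝ (push e f) z (EuclideanSpace.single i 1) ^ 2 ≤ C * G.n1 f ∧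
      G.n0 f ≤ C * ∫ z, push e f z ^ 2 := by
  have hK : IsCompact (e '' T) := hT.image_of_continuousOn (e.continuousOn.mono hs)
  have hKt := img_sub hs
  have cJ : ContinuousOn (fun z => fderiv ℝ (G.M.x ∘ e.symm) z) e.target :=
    he.sm.continuousOn_fderiv_of_isOpen e.open_target (by simp)
  have c2 : ContinuousOn (fun z =>
      1 + ∑ i, ‖fderiv ℝ (G.M.x ∘ e.symm) z (EuclideanSpace.single i 1)‖ ^ 2) e.target :=
    continuousOn_const.add (continuousOn_finsetSum _ fun i _ =>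
      (cJ.clm_apply continuousOn_const).norm.pow 2)
  obtain ⟨C₁, h₁⟩ := hK.exists_bound_of_continuousOn ((cont_om he).mono hKt)
  obtain ⟨C₂, h₂⟩ := hK.exists_bound_of_continuousOn
    ((c2.div (cont_om he) fun z hz => (om_pos he hz).ne').mono hKt)
  obtain ⟨C, hC, a₁, a₂⟩ : ∃ C : ℝ, 0 < C ∧ C₁ ≤ C ∧ C₂ ≤ C :=
    ⟨max 1 (max C₁ C₂), lt_max_of_lt_left one_pos, le_max_of_le_right (le_max_left _ _),
      le_max_of_le_right (le_max_right _ _)⟩
  have h₂' : ∀ z ∈ e '' T,
      1 + ∑ i, ‖fderiv ℝ (G.M.x ∘ e.symm) z (EuclideanSpace.single i 1)‖ ^ 2 ≤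
        C * G.om e z := fun z hz => (div_le_iff₀ (om_pos he (hKt hz))).1
    ((le_abs_self _).trans ((h₂ z hz).trans a₂))
  refine ⟨C, hC, fun f hf hfT => ?_⟩
  have s1 : support f ⊆ T := (subset_tsupport f).trans hfT
  have s2 : support (fun p => f p ^ 2) ⊆ T := fun p hp => s1 fun h => hp (by simp [h])
  have s3 : support (G.g1 f) ⊆ T := fun p hp => by
    by_contra h0
    exact hp (gam_zero _ fun h => h0 (hfT h))
  have tK : tsupport (push e f) ⊆ e '' T := by
    rw [tsupport_push hf.cs (hfT.trans hs)]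
    exact image_mono hfT
  refine ⟨int_le_chart he (tst_intg (tst_sq hf)) (s2.trans hs)
    (fun _ => sq_nonneg _) fun z => ?_, int_le_chart he (tst_intg (tst_g1 hf))
      (s3.trans hs) (fun _ => Finset.sum_nonneg fun _ _ => sq_nonneg _) fun z => ?_, ?_⟩
  · by_cases hz : z ∈ e '' T
    · rw [push_of_mem _ (hKt hz), push_of_mem _ (hKt hz), ← mul_assoc]
      exact le_mul_of_one_le_left (sq_nonneg _) ((le_add_of_nonneg_right
        (Finset.sum_nonneg fun _ _ => sq_nonneg _)).trans (h₂' z hz))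
    · rw [push_zero s1 hz, push_zero s2 hz]
      simp
  · by_cases hz : z ∈ e '' T
    · rw [push_of_mem _ (hKt hz), ← mul_assoc]
      refine le_trans ?_ (mul_le_mul_of_nonneg_right
        ((le_add_of_nonneg_left zero_le_one).trans (h₂' z hz)) (g1_nonneg _ _))
      rw [Finset.sum_mul]
      exact Finset.sum_le_sum fun i _ => fderiv_push_le he f (hKt hz) _
    · rw [push_zero s3 hz, fderiv_of_notMem_tsupport ℝ fun h => hz (tK h)]
      simp
  · obtain ⟨i1, e1⟩ := chart_int he (tst_intg (tst_sq hf)) (s2.trans hs)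
    rw [n0, e1, ← integral_const_mul]
    refine integral_mono i1 (((push_sm he hf (hfT.trans hs)).continuous.memLp_of_hasCompactSupport
      (hK.of_isClosed_subset (isClosed_tsupport _) tK)).integrable_sq.const_mul _) fun z => ?_
    by_cases hz : z ∈ e '' T
    · simp only [push_of_mem _ (hKt hz)]
      exact mul_le_mul_of_nonneg_right ((le_abs_self _).trans ((h₁ z hz).trans a₁)) (sq_nonneg _)
    · simp only [push_zero s2 hz, mul_zero]
      positivity

/-- Rellich in one chart -/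
theorem rel_chart (he : IsChart G.M.x e) (hχ : G.M.Tst χ) (hs : tsupport χ ⊆ e.source)
    {u : ℕ → X → ℝ} (hu : ∀ n, G.H1 (u n)) (hb : ∀ n, G.n0 (u n) + G.n1 (u n) ≤ 1) {δ : ℝ}
    (hδ : 0 < δ) : ∃ A ∈ hyperfilter ℕ, ∀ n ∈ A, ∀ m ∈ A,
      ∫ p, (χ p * u n p - χ p * u m p) ^ 2 ∂G.nu ≤ δ := by
  obtain ⟨C, hC, h₁⟩ := chart_bounds he hχ.cs.isCompact hs
  obtain ⟨C₃, hC₃, h₃⟩ := mul_le hχ
  have t : ∀ n, G.M.Tst fun p => χ p * u n p := fun n => tst_mul hχ (hu n).sm
  have ts : ∀ n, tsupport (fun p => χ p * u n p) ⊆ tsupport χ := fun n => tsupport_mul_subset_left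
  have bd : ∀ n, G.n0 (fun p => χ p * u n p) + G.n1 (fun p => χ p * u n p) ≤ C₃ := fun n =>
    (h₃ _ (hu n)).trans (mul_le_of_le_one_right hC₃.le (hb n))
  obtain ⟨A, hA, h⟩ := rel_real
    (hχ.cs.isCompact.image_of_continuousOn (e.continuousOn.mono hs))
    (fun n => push_sm he (t n) ((ts n).trans hs))
    (fun n => (tsupport_push (t n).cs ((ts n).trans hs)).trans_subset (image_mono (ts n)))
    (C := C * C₃) (fun n => (h₁ _ (t n) (ts n)).1.trans (mul_le_mul_of_nonneg_left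
        ((le_add_of_nonneg_right (n1_nonneg _)).trans (bd n)) hC.le))
    (fun n => (h₁ _ (t n) (ts n)).2.1.trans (mul_le_mul_of_nonneg_left
        ((le_add_of_nonneg_left (n0_nonneg _)).trans (bd n)) hC.le))
    (δ := δ / C) (by positivity)
  refine ⟨A, hA, fun n hn m hm => ?_⟩
  have h4 := (le_div_iff₀' hC).1 (h n hn m hm)
  have h5 := (h₁ (fun p => χ p * u n p - χ p * u m p)
    ⟨(t n).sm.sub (t m).sm, (t n).cs.sub (t m).cs⟩ (by
      simp only [← mul_sub]
      exact tsupport_mul_subset_left)).2.2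
  refine h5.trans (le_of_eq_of_le ?_ h4)
  congr 1
  refine integral_congr_ae (.of_forall fun z => ?_)
  by_cases hz : z ∈ e.target
  · simp only [push_of_mem _ hz]
  · simp only [push, indicator_of_notMem hz, sub_self]

/-- Rellich with a compactly supported weight -/
theorem rel (hχ : G.M.Tst χ) (h1 : ∀ p, χ p ≤ 1)
    {u : ℕ → X → ℝ} (hu : ∀ n, G.H1 (u n)) (hb : ∀ n, G.n0 (u n) + G.n1 (u n) ≤ 1) {δ : ℝ}
    (hδ : 0 < δ) : ∃ n m, n < m ∧ ∫ p, χ p * (u n p - u m p) ^ 2 ∂G.nu ≤ δ := by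
  obtain ⟨N, φ, i, hφ, -, h2⟩ := G.M.exists_partition hχ.cs.isCompact
    (fun p => (G.M.ch p).source) (fun p => (G.M.ch p).open_source)
    fun p _ => mem_iUnion.2 ⟨p, G.M.mem p⟩
  choose A hA h using fun k => rel_chart (G.M.isChart (i k)) (hφ k).1 (hφ k).2.1 hu hb
    (δ := δ / (N + 1) ^ 2) (by positivity)
  have hinf : (⋂ k, A k).Infinite := fun hf =>
    hf.notMem_hyperfilter (Filter.iInter_mem.2 hA : (⋂ k, A k) ∈ (hyperfilter ℕ : Filter ℕ))
  obtain ⟨n, hn⟩ := hinf.nonempty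
  obtain ⟨m, hm, hnm⟩ := hinf.exists_gt n
  refine ⟨n, m, hnm, ?_⟩
  have t : ∀ k, Integrable (fun p => (φ k p * u n p - φ k p * u m p) ^ 2) G.nu := fun k =>
    ((tst_s2 (tst_mul (hφ k).1 (hu n).sm)).sub (tst_s2 (tst_mul (hφ k).1 (hu m).sm))).sq
  have h3 : ∫ p, χ p * (u n p - u m p) ^ 2 ∂G.nu ≤
      ∫ p, N * ∑ k, (φ k p * u n p - φ k p * u m p) ^ 2 ∂G.nu := by
    refine integral_mono (tst_intg (tst_mul hχ (((hu n).sm.sub (hu m).sm).pow 2)))
      ((integrable_finsetSum _ fun k _ => t k).const_mul _) fun p => ?_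
    by_cases hp : p ∈ tsupport χ
    · have a1 := sq_sum_le_card_mul_sum_sq (s := Finset.univ) (f := fun k => φ k p)
      rw [h2.self_of_nhdsSet p hp, one_pow, Finset.card_univ, Fintype.card_fin] at a1
      simp only [← mul_sub, mul_pow, ← Finset.sum_mul, ← mul_assoc]
      exact mul_le_mul_of_nonneg_right ((h1 p).trans a1) (sq_nonneg _)
    · simp only [image_eq_zero_of_notMem_tsupport hp, zero_mul]
      positivity
  rw [integral_const_mul, integral_finsetSum _ fun k _ => t k] at h3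
  have h4 := Finset.sum_le_card_nsmul Finset.univ _ _ fun k _ =>
    h k n (mem_iInter.1 hn k) m (mem_iInter.1 hm k)
  rw [Finset.card_univ, Fintype.card_fin, nsmul_eq_mul] at h4
  refine h3.trans ((mul_le_mul_of_nonneg_left h4 N.cast_nonneg).trans ?_)
  rw [← mul_assoc, mul_div_assoc', div_le_iff₀ (by positivity)]
  have : (0 : ℝ) ≤ N := N.cast_nonneg
  nlinarith [mul_nonneg hδ.le this]

theorem n0_const_mul (c : ℝ) (u : X → ℝ) : G.n0 (fun p => c * u p) = c ^ 2 * G.n0 u := by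
  simp only [n0, mul_pow, integral_const_mul]

theorem n1_const_mul (c : ℝ) (hu : G.M.Sm u) : G.n1 (fun p => c * u p) = c ^ 2 * G.n1 u := by
  simp only [n1, g1_eq, D_cmul' c hu, mul_pow, ← Finset.mul_sum, integral_const_mul]

theorem ip_const_mul (c : ℝ) (u v : X → ℝ) : G.ip u (fun p => c * v p) = c * G.ip u v := by
  simp only [ip, mul_left_comm _ c, integral_const_mul]

/-- on a subspace of finite codimension the `L²` norm is small -/
theorem exists_small (G : Gd d ι X) {ε : ℝ} (hε : 0 < ε) : ∃ s : Finset (X → ℝ),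
    (∀ w ∈ s, G.M.Tst w) ∧ ∀ u, G.H1 u → (∀ w ∈ s, G.ip w u = 0) →
      G.n0 u ≤ ε * (G.n0 u + G.n1 u) := by
  classical
  obtain ⟨C, hC, hE⟩ := G.ecker
  obtain ⟨N, hN⟩ := exists_nat_ge (4 * C / ε)
  have hN1 : (0 : ℝ) < N + 1 := by positivity
  have hN2 : 2 / (N + 1) * C ≤ ε / 2 := by
    rw [div_le_iff₀ hε] at hN
    rw [div_mul_eq_mul_div, div_le_iff₀ hN1]
    nlinarith
  have tc := G.tst_cut N
  have key : ∀ u, G.H1 u → G.n0 u ≤
      ∫ p, G.cut N p * u p ^ 2 ∂G.nu + ε / 2 * (G.n0 u + G.n1 u) := fun u hu => by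
    obtain ⟨i1, h1⟩ := hE u hu
    have i2 := tst_intg (tst_mul tc (hu.sm.pow 2))
    have h2 : G.n0 u ≤ ∫ p, (G.cut N p * u p ^ 2 + 2 / (N + 1) * (G.ρ p * u p ^ 2)) ∂G.nu := by
      refine integral_mono hu.toS2.sq (i2.add (i1.const_mul _)) fun p => ?_
      have a1 := mul_nonneg (G.ρ0 p) (sq_nonneg (u p))
      by_cases hp : G.ρ p ≤ (N + 1) / 2
      · simp only [cut_one hp, one_mul]
        exact le_add_of_nonneg_right (by positivity)
      · have a2 : 1 ≤ 2 / (N + 1) * G.ρ p := by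
          rw [div_mul_eq_mul_div, le_div_iff₀ hN1]; linarith
        simp only [← mul_assoc]
        nlinarith [mul_nonneg (cut_nonneg (G := G) N p) (sq_nonneg (u p)),
          mul_le_mul_of_nonneg_right a2 (sq_nonneg (u p))]
    rw [integral_add i2 (i1.const_mul _), integral_const_mul] at h2
    have h3 := add_nonneg (n0_nonneg (G := G) u) (n1_nonneg (G := G) u)
    have h4 := mul_le_mul_of_nonneg_left h1 (by positivity : 0 ≤ 2 / ((N : ℝ) + 1))
    nlinarith [mul_le_mul_of_nonneg_right hN2 h3]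
  by_contra hcon
  push Not at hcon
  obtain ⟨u, hu, hr⟩ := exists_seq_of_forall_finset_exists
    (fun u => G.H1 u ∧ G.n0 u + G.n1 u ≤ 1 ∧ ε / 2 < ∫ p, G.cut N p * u p ^ 2 ∂G.nu)
    (fun u v => G.ip (fun p => G.cut N p * u p) v = 0) fun s hs => by
      obtain ⟨u, hu, h1, h2⟩ := hcon (s.image fun w p => G.cut N p * w p) fun w hw => by
        obtain ⟨w', hw', rfl⟩ := Finset.mem_image.1 hw
        exact tst_mul tc (hs w' hw').1.sm
      have h3 := key u hu
      have h0 : 0 < G.n0 u + G.n1 u := by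
        have a1 := n0_nonneg (G := G) u
        have a2 := n1_nonneg (G := G) u
        nlinarith [mul_nonneg hε.le (add_nonneg a1 a2)]
      have e1 : (√(G.n0 u + G.n1 u))⁻¹ ^ 2 = (G.n0 u + G.n1 u)⁻¹ := by
        rw [inv_pow, Real.sq_sqrt h0.le]
      refine ⟨fun p => (√(G.n0 u + G.n1 u))⁻¹ * u p, ⟨hu.const_mul _, ?_, ?_⟩, fun w hw => ?_⟩
      · rw [n0_const_mul, n1_const_mul _ hu.sm, ← mul_add, e1, inv_mul_cancel₀ h0.ne']
      · simp only [mul_pow, mul_left_comm (G.cut N _), integral_const_mul, e1]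
        rw [← div_eq_inv_mul, lt_div_iff₀ h0]
        linarith
      · rw [ip_const_mul, h1 _ (Finset.mem_image_of_mem _ hw), mul_zero]
  obtain ⟨n, m, hnm, h⟩ := rel tc (cut_le N) (fun n => (hu n).1) (fun n => (hu n).2.1) hε
  have h1 := hr n m hnm
  have i1 := tst_intg (tst_mul tc ((hu n).1.sm.pow 2))
  have i2 := tst_intg (tst_mul tc ((hu m).1.sm.pow 2))
  have i3 := tst_intg (tst_mul (tst_mul tc (hu n).1.sm) (hu m).1.sm)
  have e : ∀ p, G.cut N p * (u n p - u m p) ^ 2 = G.cut N p * u n p ^ 2 + G.cut N p * u m p ^ 2 -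
      2 * (G.cut N p * u n p * u m p) := fun p => by ring
  have i4 : Integrable (fun p => G.cut N p * u n p ^ 2 + G.cut N p * u m p ^ 2) G.nu := i1.add i2
  simp only [e] at h
  rw [integral_sub i4 (i3.const_mul 2), integral_add i1 i2, integral_const_mul] at h
  rw [ip] at h1
  linarith [(hu n).2.2, (hu m).2.2]

end Gd

end Crest.Agent.N250.Lin

end
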